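import Mathlib
import Crest.Prelude.Def_BoxFlow

/-!
# Global flows of smooth compactly supported time-dependent fields on `Fin 3 → ℝ` (helper7)

Module FLOW for S0170:
* `exists_global_flow` : a smooth compactly supported field has a global flow (`BoxFlow.IsFlow`);
* `flow_eq_of_solution` : any global solution of the ODE coincides with the flow line through
  its value at time `0`.
-/

set_option autoImplicit false

namespace Crest.Agent.Helper7.Flow

open Crest.AnalysisR.BoxFlow Set Metric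
open scoped NNReal ContDiff Topology

/-- A continuous compactly supported field is bounded. -/
lemma exists_norm_bound (U : Field) (hU : Continuous U) (hc : HasCompactSupport U) :
    ∃ L : ℝ≥0, ∀ p, ‖U p‖ ≤ L := by
  obtain ⟨C, hC⟩ := hU.bounded_above_of_compact_support hc
  refine ⟨Real.toNNReal C, fun p => ?_⟩
  exact (hC p).trans (Real.le_coe_toNNReal C)

/-- A `C¹` compactly supported field is globally Lipschitz. -/
lemma exists_lipschitz (U : Field) (hU : ContDiff ℝ 1 U) (hc : HasCompactSupport U) :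
    ∃ K : ℝ≥0, LipschitzWith K U := by
  have hcont : Continuous (fderiv ℝ U) := hU.continuous_fderiv one_ne_zero
  obtain ⟨C, hC⟩ := hcont.bounded_above_of_compact_support (hc.fderiv (𝕜 := ℝ))
  refine ⟨Real.toNNReal C, ?_⟩
  refine lipschitzWith_of_nnnorm_fderiv_le (𝕜 := ℝ) (hU.differentiable one_ne_zero) (fun x => ?_)
  exact NNReal.le_toNNReal_of_coe_le (by simpa using hC x)

/-- The slices `x ↦ U (t, x)` are uniformly Lipschitz. -/
lemma exists_lipschitz_slice (U : Field) (hU : ContDiff ℝ 1 U) (hc : HasCompactSupport U) :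
    ∃ K : ℝ≥0, ∀ t : ℝ, LipschitzWith K (fun x : Fin 3 → ℝ => U (t, x)) := by
  obtain ⟨K, hK⟩ := exists_lipschitz U hU hc
  refine ⟨K, fun t => ?_⟩
  have h1 : LipschitzWith 1 (fun x : Fin 3 → ℝ => ((t, x) : ℝ × (Fin 3 → ℝ))) :=
    LipschitzWith.of_dist_le_mul fun x y => by
      simp [Prod.dist_eq]
  have h2 := hK.comp h1
  simpa [Function.comp_def] using h2

/-- Existence of a solution on `[-T, T]` through any point. -/
lemma exists_solution_Icc (U : Field) (hU : ContDiff ℝ 1 U) (hc : HasCompactSupport U)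
    (T : ℝ) (hT : 0 < T) (x : Fin 3 → ℝ) :
    ∃ α : ℝ → (Fin 3 → ℝ), α 0 = x ∧
      ∀ t ∈ Icc (-T) T, HasDerivWithinAt α (U (t, α t)) (Icc (-T) T) t := by
  obtain ⟨L, hL⟩ := exists_norm_bound U hU.continuous hc
  obtain ⟨K, hK⟩ := exists_lipschitz_slice U hU hc
  have h0 : (0:ℝ) ∈ Icc (-T) T := ⟨by linarith, hT.le⟩
  have hPL : IsPicardLindelof (fun t x => U (t, x)) (tmin := -T) (tmax := T) ⟨0, h0⟩ x
      (L * Real.toNNReal T) 0 L K :=
    { lipschitzOnWith := fun t _ => (hK t).lipschitzOnWith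
      continuousOn := fun y _ => (hU.continuous.comp (by fun_prop)).continuousOn
      norm_le := fun t _ y _ => hL (t, y)
      mul_max_le := by
        rw [NNReal.coe_mul, Real.coe_toNNReal T hT.le]
        simp }
  obtain ⟨α, hα0, hα⟩ := hPL.exists_eq_forall_mem_Icc_hasDerivWithinAt₀
  exact ⟨α, hα0, hα⟩

/-- Two solutions on `[-T, T]` with the same value at `0` agree on `[-T, T]`. -/
lemma solution_unique_Icc (U : Field) (hU : ContDiff ℝ 1 U) (hc : HasCompactSupport U)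
    (T : ℝ) (hT : 0 < T) (α β : ℝ → (Fin 3 → ℝ))
    (hα : ∀ t ∈ Icc (-T) T, HasDerivWithinAt α (U (t, α t)) (Icc (-T) T) t)
    (hβ : ∀ t ∈ Icc (-T) T, HasDerivWithinAt β (U (t, β t)) (Icc (-T) T) t)
    (h0 : α 0 = β 0) : EqOn α β (Icc (-T) T) := by
  obtain ⟨K, hK⟩ := exists_lipschitz_slice U hU hc
  have hmem : (0:ℝ) ∈ Ioo (-T) T := ⟨by linarith, hT⟩
  refine ODE_solution_unique_of_mem_Icc (v := fun t x => U (t, x)) (s := fun _ => univ) (K := K)
    (fun t _ => (hK t).lipschitzOnWith) hmem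
    (fun t ht => (hα t ht).continuousWithinAt)
    (fun t ht => (hα t (Ioo_subset_Icc_self ht)).hasDerivAt (Icc_mem_nhds ht.1 ht.2))
    (fun _ _ => mem_univ _)
    (fun t ht => (hβ t ht).continuousWithinAt)
    (fun t ht => (hβ t (Ioo_subset_Icc_self ht)).hasDerivAt (Icc_mem_nhds ht.1 ht.2))
    (fun _ _ => mem_univ _) h0

/-- **Global flow.** A smooth compactly supported time-dependent field on `Fin 3 → ℝ` has a
global flow starting from the identity. -/
theorem exists_global_flow_of_contDiff_one (U : Field) (hU : ContDiff ℝ 1 U)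
    (hc : HasCompactSupport U) : ∃ Φ : ℝ → (Fin 3 → ℝ) → (Fin 3 → ℝ), IsFlow U Φ := by
  -- solutions on `[-(n+1), n+1]`
  have hex : ∀ (n : ℕ) (x : Fin 3 → ℝ), ∃ α : ℝ → (Fin 3 → ℝ), α 0 = x ∧
      ∀ t ∈ Icc (-((n:ℝ) + 1)) ((n:ℝ) + 1),
        HasDerivWithinAt α (U (t, α t)) (Icc (-((n:ℝ) + 1)) ((n:ℝ) + 1)) t :=
    fun n x => exists_solution_Icc U hU hc ((n:ℝ) + 1) (by positivity) x
  choose α hα0 hα using hex
  -- compatibility
  have hcompat : ∀ (n m : ℕ) (x : Fin 3 → ℝ), n ≤ m →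
      EqOn (α n x) (α m x) (Icc (-((n:ℝ) + 1)) ((n:ℝ) + 1)) := by
    intro n m x hnm
    have hsub : Icc (-((n:ℝ) + 1)) ((n:ℝ) + 1) ⊆ Icc (-((m:ℝ) + 1)) ((m:ℝ) + 1) := by
      have : (n:ℝ) ≤ m := by exact_mod_cast hnm
      exact Icc_subset_Icc (by linarith) (by linarith)
    refine solution_unique_Icc U hU hc ((n:ℝ) + 1) (by positivity) _ _ (hα n x)
      (fun t ht => (hα m x t (hsub ht)).mono hsub) ?_
    rw [hα0, hα0]
  -- the flow
  refine ⟨fun t x => α ⌈|t|⌉₊ x t, fun x => ?_, fun t x => ?_⟩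
  · simp [hα0]
  · set m : ℕ := ⌈|t|⌉₊ + 1 with hm
    have habs : |t| < (m:ℝ) + 1 := by
      have := Nat.le_ceil |t|
      rw [hm]; push_cast; linarith
    have htm : t ∈ Ioo (-((m:ℝ) + 1)) ((m:ℝ) + 1) := abs_lt.mp habs
    -- near `t` the flow line is `α m x`
    have hEq : ∀ s ∈ Ioo (-((m:ℝ) + 1)) ((m:ℝ) + 1),
        α ⌈|s|⌉₊ x s = α m x s := by
      intro s hs
      have hs' : |s| < (m:ℝ) + 1 := abs_lt.mpr hs
      have hceil : |s| ≤ (⌈|s|⌉₊ : ℝ) := Nat.le_ceil _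
      have hsmem : s ∈ Icc (-((⌈|s|⌉₊:ℝ) + 1)) ((⌈|s|⌉₊:ℝ) + 1) := by
        rw [mem_Icc]; constructor <;> [linarith [neg_abs_le s]; linarith [le_abs_self s]]
      have hsmem' : s ∈ Icc (-((m:ℝ) + 1)) ((m:ℝ) + 1) := Ioo_subset_Icc_self hs
      rcases le_total ⌈|s|⌉₊ m with h | h
      · exact hcompat _ _ x h hsmem
      · exact (hcompat _ _ x h hsmem').symm
    have hd : HasDerivAt (α m x) (U (t, α m x t)) t :=
      (hα m x t (Ioo_subset_Icc_self htm)).hasDerivAt (Icc_mem_nhds htm.1 htm.2)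
    have hev : (fun s => α ⌈|s|⌉₊ x s) =ᶠ[𝓝 t] α m x := by
      filter_upwards [Ioo_mem_nhds htm.1 htm.2] with s hs using hEq s hs
    have hval : α ⌈|t|⌉₊ x t = α m x t := hEq t htm
    simp only [hval]
    exact hd.congr_of_eventuallyEq hev

/-- **Global flow** for smooth fields (the form used in S0170). -/
theorem exists_global_flow (U : Field) (hU : ContDiff ℝ ∞ U) (hc : HasCompactSupport U) :
    ∃ Φ : ℝ → (Fin 3 → ℝ) → (Fin 3 → ℝ), IsFlow U Φ :=
  exists_global_flow_of_contDiff_one U (hU.of_le (by exact_mod_cast le_top)) hc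

/-- **Uniqueness.** A global solution of the ODE is the flow line through its value at `0`. -/
theorem flow_eq_of_solution_of_contDiff_one (U : Field) (hU : ContDiff ℝ 1 U)
    (hc : HasCompactSupport U) {Φ : ℝ → (Fin 3 → ℝ) → (Fin 3 → ℝ)} (hΦ : IsFlow U Φ)
    {y : ℝ → (Fin 3 → ℝ)} (hy : ∀ t, HasDerivAt y (U (t, y t)) t) (t : ℝ) :
    Φ t (y 0) = y t := by
  obtain ⟨K, hK⟩ := exists_lipschitz_slice U hU hc
  have h := ODE_solution_unique_univ (v := fun t x => U (t, x)) (s := fun _ => univ) (K := K)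
    (f := fun s => Φ s (y 0)) (g := y) (t₀ := 0)
    (fun t => (hK t).lipschitzOnWith)
    (fun t => ⟨hΦ.2 t (y 0), mem_univ _⟩) (fun t => ⟨hy t, mem_univ _⟩) (hΦ.1 (y 0))
  exact congrFun h t

theorem flow_eq_of_solution (U : Field) (hU : ContDiff ℝ ∞ U)
    (hc : HasCompactSupport U) {Φ : ℝ → (Fin 3 → ℝ) → (Fin 3 → ℝ)} (hΦ : IsFlow U Φ)
    {y : ℝ → (Fin 3 → ℝ)} (hy : ∀ t, HasDerivAt y (U (t, y t)) t) (t : ℝ) :
    Φ t (y 0) = y t :=
  flow_eq_of_solution_of_contDiff_one U (hU.of_le (by exact_mod_cast le_top)) hc hΦ hy t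

end Crest.Agent.Helper7.Flow
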