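import Mathlib
import Crest.Prelude.Def_BoxFlow
import Crest.Agent.BoxFlow.Defs
import Crest.Agent.Helper7.Flow

/-!
# S0170: composition of realisations (package W7) and the hypothesis bundle `Kit`

* `Kit`: the facts from the other packages (effective 1-D functions, stream fields) used by the
  elementary moves and the composition lemma, bundled as one hypothesis.
* `flow_const_before`, `flow_const_after`: a flow does not move while the field vanishes.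
* `realizes_of_solutions`: generic constructor of `Realizes` from explicit solution curves.
* `realizes_refl`, `realizes_trans`.
-/

set_option autoImplicit false

open Set
open scoped ContDiff
open Crest.AnalysisR.BoxFlow Crest.Agent.BoxFlow

namespace Crest.Agent.Helper7

/-- The facts from the other S0170 packages that the elementary moves and the composition
lemma rely on. -/
structure Kit : Prop where
  sigma : Eff1 Real.smoothTransition
  const : ∀ q : ℚ, Eff1 (fun _ : ℝ => (q : ℝ))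
  add : ∀ {f g : ℝ → ℝ}, Eff1 f → Eff1 g → Eff1 (fun x => f x + g x)
  mul : ∀ {f g : ℝ → ℝ}, Eff1 f → Eff1 g → Eff1 (fun x => f x * g x)
  const_mul : ∀ (q : ℚ) {f : ℝ → ℝ}, Eff1 f → Eff1 (fun x => (q : ℝ) * f x)
  comp_affine : ∀ (p q : ℚ) {f : ℝ → ℝ}, Eff1 f → Eff1 (fun x => f ((p : ℝ) * x + (q : ℝ)))
  deriv : ∀ {f : ℝ → ℝ}, Eff1 f → Eff1 (deriv f)
  div : ∀ (G : ℕ) {f g : ℝ → ℝ}, 0 < G → (∀ x, 1 / (G : ℝ) ≤ g x) → Eff1 f → Eff1 g →
    Eff1 (fun x => f x / g x)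
  sub_mul : ∀ (q : ℚ) (R : ℕ) {f : ℝ → ℝ}, (∀ x, (R : ℝ) < |x| → f x = 0) → Eff1 f →
    Eff1 (fun x => (x - (q : ℝ)) * f x)
  stream_contDiff : ∀ {m : ℝ → ℝ} {f : Fin 3 → ℝ → ℝ} (a b : Fin 3), ContDiff ℝ ∞ m →
    (∀ i, ContDiff ℝ ∞ (f i)) → ContDiff ℝ ∞ (streamField m f a b)
  stream_effective : ∀ {m : ℝ → ℝ} {f : Fin 3 → ℝ → ℝ} (a b : Fin 3), Eff1 m →
    (∀ i, Eff1 (f i)) → Effective (streamField m f a b)
  stream_div : ∀ {m : ℝ → ℝ} {f : Fin 3 → ℝ → ℝ} (a b : Fin 3), a ≠ b → ContDiff ℝ ∞ m →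
    (∀ i, ContDiff ℝ ∞ (f i)) → ∀ p, spaceDiv (streamField m f a b) p = 0
  effective_add : ∀ {U V : Field}, ContDiff ℝ ∞ U → ContDiff ℝ ∞ V → Effective U → Effective V →
    Effective (U + V)
  effective_zero : Effective (0 : Field)

/-! ## A flow is constant in time while the field vanishes -/

lemma eq_of_hasDerivAt_zero {f f' : ℝ → (Fin 3 → ℝ)} {s : Set ℝ} (hs : Convex ℝ s)
    (hf : ∀ x ∈ s, HasDerivAt f (f' x) x) (h0 : ∀ x ∈ s, f' x = 0) {x y : ℝ}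
    (hx : x ∈ s) (hy : y ∈ s) : f y = f x := by
  have h := hs.norm_image_sub_le_of_norm_hasDerivWithin_le (f := f) (f' := f') (C := 0)
    (fun x hx => (hf x hx).hasDerivWithinAt) (fun x hx => by rw [h0 x hx, norm_zero]) hx hy
  rw [zero_mul] at h
  exact sub_eq_zero.1 (norm_le_zero_iff.1 h)

theorem flow_const_before {U : Field} {Φ : ℝ → (Fin 3 → ℝ) → (Fin 3 → ℝ)} (hΦ : IsFlow U Φ)
    {α : ℝ} (hz : ∀ p : ℝ × (Fin 3 → ℝ), p.1 ≤ α → U p = 0) (hα : 0 ≤ α)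
    (t : ℝ) (ht : t ≤ α) (x : Fin 3 → ℝ) : Φ t x = x := by
  have h := eq_of_hasDerivAt_zero (f := fun s => Φ s x) (f' := fun s => U (s, Φ s x))
    (convex_Iic α) (fun s _ => hΦ.2 s x) (fun _ hs => hz _ hs) (x := 0) (y := t) hα ht
  simpa [hΦ.1 x] using h

theorem flow_const_after {U : Field} {Φ : ℝ → (Fin 3 → ℝ) → (Fin 3 → ℝ)} (hΦ : IsFlow U Φ)
    {β : ℝ} (hz : ∀ p : ℝ × (Fin 3 → ℝ), β ≤ p.1 → U p = 0)
    (t : ℝ) (ht : β ≤ t) (x : Fin 3 → ℝ) : Φ t x = Φ β x :=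
  eq_of_hasDerivAt_zero (f := fun s => Φ s x) (f' := fun s => U (s, Φ s x))
    (convex_Ici β) (fun s _ => hΦ.2 s x) (fun _ hs => hz _ hs) (x := β) (y := t)
    (mem_Ici.2 le_rfl) ht

/-! ## Generic constructor -/

/-- To realise `X ⟶ Y` it suffices to give a good field and, near every box, explicit solution
curves ending at the image under the box map. -/
theorem realizes_of_solutions {n : ℕ} {α β : ℚ} (hα : 0 ≤ α) (X Y : Conf n) (U : Field)
    (hU : ContDiff ℝ ∞ U) (hc : HasCompactSupport U) (hE : Effective U)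
    (hz : ∀ p : ℝ × (Fin 3 → ℝ), p.1 ∉ Set.Ioo (α : ℝ) (β : ℝ) → U p = 0)
    (hdiv : ∀ p, spaceDiv U p = 0)
    (hsol : ∀ i : Fin n, ∃ O : Set (Fin 3 → ℝ), IsOpen O ∧ box (X.c i) (X.h i) ⊆ O ∧
      ∀ x ∈ O, ∃ γ : ℝ → (Fin 3 → ℝ), (∀ t, HasDerivAt γ (U (t, γ t)) t) ∧ γ 0 = x ∧
        γ (β : ℝ) = boxMap X Y i x) :
    Realizes n α β X Y := by
  obtain ⟨Φ, hΦ⟩ := Flow.exists_global_flow U hU hc
  refine ⟨U, Φ, hU, hc, hE, hz, hdiv, hΦ, ?_, ?_, ?_⟩
  · intro t ht x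
    exact flow_const_before hΦ (fun p hp => hz p (fun h => absurd h.1 (not_lt.2 hp)))
      (by exact_mod_cast hα) t ht x
  · intro t ht x
    exact flow_const_after hΦ (fun p hp => hz p (fun h => absurd h.2 (not_lt.2 hp))) t ht x
  · intro i
    obtain ⟨O, hO, hbox, hγ⟩ := hsol i
    refine ⟨O, hO, hbox, fun x hx => ?_⟩
    obtain ⟨γ, hγd, hγ0, hγβ⟩ := hγ x hx
    have := Flow.flow_eq_of_solution U hU hc hΦ hγd (β : ℝ)
    rw [hγ0, hγβ] at this
    exact this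

/-! ## Box maps -/

lemma boxMap_self {n : ℕ} (X : Conf n) (hX : X.Pos) (i : Fin n) (x : Fin 3 → ℝ) :
    boxMap X X i x = x := by
  funext j
  have h : (X.h i j : ℝ) ≠ 0 := by exact_mod_cast (hX i j).ne'
  simp only [boxMap]
  push_cast
  rw [div_self h]
  ring

lemma boxMap_comp {n : ℕ} (X Y Z : Conf n) (hY : Y.Pos) (i : Fin n) (x : Fin 3 → ℝ) :
    boxMap Y Z i (boxMap X Y i x) = boxMap X Z i x := by
  funext j
  have h : (Y.h i j : ℝ) ≠ 0 := by exact_mod_cast (hY i j).ne'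
  simp only [boxMap]
  push_cast
  field_simp
  ring

lemma continuous_boxMap {n : ℕ} (X Y : Conf n) (i : Fin n) : Continuous (boxMap X Y i) := by
  unfold boxMap
  fun_prop

lemma boxMap_mem_box {n : ℕ} (X Y : Conf n) (hX : X.Pos) (hY : Y.Pos) (i : Fin n)
    {x : Fin 3 → ℝ} (hx : x ∈ box (X.c i) (X.h i)) : boxMap X Y i x ∈ box (Y.c i) (Y.h i) := by
  intro j
  have hXp : (0 : ℝ) < (X.h i j : ℝ) := by exact_mod_cast hX i j
  have hYp : (0 : ℝ) < (Y.h i j : ℝ) := by exact_mod_cast hY i j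
  have hxj := hx j
  simp only [boxMap]
  push_cast
  rw [add_sub_cancel_left, abs_mul, abs_of_pos (div_pos hYp hXp), div_mul_eq_mul_div,
    div_le_iff₀ hXp]
  exact mul_le_mul_of_nonneg_left hxj hYp.le

/-! ## Reflexivity and transitivity -/

lemma spaceDiv_zero (p : ℝ × (Fin 3 → ℝ)) : spaceDiv (0 : Field) p = 0 := by
  unfold spaceDiv
  have : fderiv ℝ (0 : Field) p = 0 := by
    have h : (0 : Field) = fun _ => (0 : Fin 3 → ℝ) := rfl
    rw [h]
    exact (hasFDerivAt_const (0 : Fin 3 → ℝ) p).fderiv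
  simp [this]

lemma spaceDiv_add {U V : Field} (hU : ContDiff ℝ ∞ U) (hV : ContDiff ℝ ∞ V)
    (p : ℝ × (Fin 3 → ℝ)) : spaceDiv (U + V) p = spaceDiv U p + spaceDiv V p := by
  unfold spaceDiv
  have hUd : DifferentiableAt ℝ U p := (hU.differentiable (by simp)).differentiableAt
  have hVd : DifferentiableAt ℝ V p := (hV.differentiable (by simp)).differentiableAt
  rw [fderiv_add hUd hVd, ← Finset.sum_add_distrib]
  rfl

theorem realizes_refl (kit : Kit) {n : ℕ} (α β : ℚ) (X : Conf n) (hX : X.Pos) :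
    Realizes n α β X X := by
  refine ⟨0, fun _ x => x, contDiff_const, HasCompactSupport.zero, kit.effective_zero,
    fun _ _ => rfl, spaceDiv_zero, ⟨fun _ => rfl, fun t x => ?_⟩, fun _ _ _ => rfl,
    fun _ _ _ => rfl, fun i => ?_⟩
  · exact hasDerivAt_const t x
  · exact ⟨univ, isOpen_univ, subset_univ _, fun x _ => (boxMap_self X hX i x).symm⟩

theorem realizes_trans (kit : Kit) {n : ℕ} {α β γ : ℚ} {X Y Z : Conf n} (hY : Y.Pos) (hX : X.Pos)
    (hαβ : α ≤ β) (hβγ : β ≤ γ) (hα : 0 ≤ α) :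
    Realizes n α β X Y → Realizes n β γ Y Z → Realizes n α γ X Z := by
  rintro ⟨U1, Φ1, hU1, hc1, hE1, hz1, hd1, hΦ1, hb1, ha1, hbox1⟩
    ⟨U2, Φ2, hU2, hc2, hE2, hz2, hd2, hΦ2, hb2, ha2, hbox2⟩
  have hαβ' : (α : ℝ) ≤ β := by exact_mod_cast hαβ
  have hβγ' : (β : ℝ) ≤ γ := by exact_mod_cast hβγ
  refine realizes_of_solutions hα X Z (U1 + U2) (hU1.add hU2) (hc1.add hc2)
    (kit.effective_add hU1 hU2 hE1 hE2) ?_ ?_ ?_
  · intro p hp
    have h1 : U1 p = 0 := hz1 p (fun h => hp ⟨h.1, h.2.trans_le hβγ'⟩)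
    have h2 : U2 p = 0 := hz2 p (fun h => hp ⟨hαβ'.trans_lt h.1, h.2⟩)
    simp [h1, h2]
  · intro p
    rw [spaceDiv_add hU1 hU2, hd1, hd2, add_zero]
  · intro i
    obtain ⟨O1, hO1, hb1', hmap1⟩ := hbox1 i
    obtain ⟨O2, hO2, hb2', hmap2⟩ := hbox2 i
    refine ⟨O1 ∩ (boxMap X Y i) ⁻¹' O2, hO1.inter (hO2.preimage (continuous_boxMap X Y i)),
      fun x hx => ⟨hb1' hx, hb2' (boxMap_mem_box X Y hX hY i hx)⟩, ?_⟩
    rintro x ⟨hx1, hx2⟩
    have hx2' : boxMap X Y i x ∈ O2 := hx2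
    set y : Fin 3 → ℝ := Φ1 (β : ℝ) x with hy
    have hyval : y = boxMap X Y i x := hmap1 x hx1
    refine ⟨fun s => Φ1 s x + Φ2 s y - y, ?_, ?_, ?_⟩
    · intro s
      have hder : HasDerivAt (fun s => Φ1 s x + Φ2 s y - y)
          (U1 (s, Φ1 s x) + U2 (s, Φ2 s y)) s :=
        ((hΦ1.2 s x).add (hΦ2.2 s y)).sub_const y
      have heq : (U1 + U2) (s, Φ1 s x + Φ2 s y - y) = U1 (s, Φ1 s x) + U2 (s, Φ2 s y) := by
        rcases le_total s (β : ℝ) with hs | hs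
        · have e2 : Φ2 s y = y := hb2 s hs y
          have z2 : ∀ w, U2 (s, w) = 0 := fun w => hz2 (s, w) (fun h => absurd h.1 (not_lt.2 hs))
          rw [e2, Pi.add_apply, z2, z2, add_sub_cancel_right]
        · have e1 : Φ1 s x = y := ha1 s hs x
          have z1 : ∀ w, U1 (s, w) = 0 := fun w => hz1 (s, w) (fun h => absurd h.2 (not_lt.2 hs))
          rw [e1, Pi.add_apply, z1, z1, add_sub_cancel_left]
      rw [heq]
      exact hder
    · show Φ1 0 x + Φ2 0 y - y = x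
      rw [hΦ1.1 x, hΦ2.1 y, add_sub_cancel_right]
    · show Φ1 (γ : ℝ) x + Φ2 (γ : ℝ) y - y = boxMap X Z i x
      rw [ha1 (γ : ℝ) hβγ' x, ← hy, add_sub_cancel_left, hyval, hmap2 _ hx2', boxMap_comp X Y Z hY]

end Crest.Agent.Helper7
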