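import Mathlib
import Crest.Prelude.Def_BoxFlow
import Crest.Agent.BoxFlow.Defs
import Crest.Agent.Helper7.Flow
import Crest.Agent.Helper7.BoxFlowCompose

/-!
# S0170: the elementary moves (package W6)

`realizes_translate` and `realizes_squeeze`: a valid translation / squeeze of one box is realised
by the flow of a stream-function field with smooth cut-offs, all other boxes staying fixed.
-/

set_option autoImplicit false

open Set
open scoped ContDiff
open Crest.AnalysisR.BoxFlow Crest.Agent.BoxFlow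

namespace Crest.Agent.Helper7

/-! ## Stream fields, pointwise -/

lemma streamField_apply (m : ℝ → ℝ) (f : Fin 3 → ℝ → ℝ) (a b : Fin 3) (p : ℝ × (Fin 3 → ℝ)) :
    streamField m f a b p =
      Pi.single a (m p.1 * ∏ i : Fin 3, (Function.update f b (deriv (f b))) i (p.2 i)) -
      Pi.single b (m p.1 * ∏ i : Fin 3, (Function.update f a (deriv (f a))) i (p.2 i)) := rfl

lemma streamField_eq_zero_of_time (m : ℝ → ℝ) (f : Fin 3 → ℝ → ℝ) (a b : Fin 3) {t : ℝ}
    (h : m t = 0) (x : Fin 3 → ℝ) : streamField m f a b (t, x) = 0 := by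
  rw [streamField_apply]
  simp [h]

lemma streamField_eq_zero_of_space (m : ℝ → ℝ) (f : Fin 3 → ℝ → ℝ) (a b : Fin 3) (t : ℝ)
    (x : Fin 3 → ℝ) (j : Fin 3) (h0 : f j (x j) = 0) (h1 : deriv (f j) (x j) = 0) :
    streamField m f a b (t, x) = 0 := by
  have key : ∀ c : Fin 3, ∏ i : Fin 3, (Function.update f c (deriv (f c))) i (x i) = 0 := by
    intro c
    apply Finset.prod_eq_zero (Finset.mem_univ j)
    by_cases hjc : j = c
    · subst hjc
      rw [Function.update_self]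
      exact h1
    · rw [Function.update_of_ne hjc]
      exact h0
  rw [streamField_apply]
  simp [key]

lemma prod_update_two (f : Fin 3 → ℝ → ℝ) (g : ℝ → ℝ) (x : Fin 3 → ℝ) {c e : Fin 3} (hce : e ≠ c)
    (h1 : ∀ i, i ≠ c → i ≠ e → f i (x i) = 1) :
    ∏ i : Fin 3, (Function.update f c g) i (x i) = g (x c) * f e (x e) := by
  rw [← Finset.mul_prod_erase Finset.univ _ (Finset.mem_univ c), Function.update_self,
    ← Finset.mul_prod_erase (Finset.univ.erase c) _
      (Finset.mem_erase.2 ⟨hce, Finset.mem_univ e⟩),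
    Function.update_of_ne hce, Finset.prod_eq_one, mul_one]
  intro i hi
  have hie : i ≠ e := (Finset.mem_erase.1 hi).1
  have hic : i ≠ c := (Finset.mem_erase.1 (Finset.mem_erase.1 hi).2).1
  rw [Function.update_of_ne hic]
  exact h1 i hic hie

lemma streamField_plateau (m : ℝ → ℝ) (f : Fin 3 → ℝ → ℝ) {a b : Fin 3} (hab : a ≠ b) (t : ℝ)
    (x : Fin 3 → ℝ) (h1 : ∀ i, i ≠ a → i ≠ b → f i (x i) = 1) :
    streamField m f a b (t, x) =
      Pi.single a (m t * (deriv (f b) (x b) * f a (x a))) -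
      Pi.single b (m t * (deriv (f a) (x a) * f b (x b))) := by
  rw [streamField_apply]
  simp only
  rw [prod_update_two f (deriv (f b)) x hab (fun i hib hia => h1 i hia hib),
    prod_update_two f (deriv (f a)) x hab.symm h1]

/-! ## Functions with values in `[0,1]` have zero derivative where they are `0` or `1` -/

lemma deriv_eq_zero_of_eq_zero' {f : ℝ → ℝ} (h0 : ∀ y, 0 ≤ f y) {x : ℝ} (hx : f x = 0) :
    deriv f x = 0 := by
  have hmin : IsLocalMin f x := Filter.Eventually.of_forall fun y => by rw [hx]; exact h0 y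
  exact hmin.deriv_eq_zero

lemma deriv_eq_zero_of_eq_one' {f : ℝ → ℝ} (h1 : ∀ y, f y ≤ 1) {x : ℝ} (hx : f x = 1) :
    deriv f x = 0 := by
  have hmax : IsLocalMax f x := Filter.Eventually.of_forall fun y => by rw [hx]; exact h1 y
  exact hmax.deriv_eq_zero

/-! ## The time ramp -/

/-- `ramp α β t = σ ((t - α) / (β - α))`: smooth, `0` for `t ≤ α`, `1` for `t ≥ β`. -/
noncomputable def ramp (α β : ℚ) : ℝ → ℝ := fun t =>
  Real.smoothTransition (((1 / (β - α) : ℚ) : ℝ) * t + ((-α / (β - α) : ℚ) : ℝ))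

lemma ramp_eq (α β : ℚ) (hαβ : α < β) (t : ℝ) :
    ramp α β t = Real.smoothTransition ((t - α) / (β - α)) := by
  have h : (β : ℝ) - α ≠ 0 := by
    have : (α : ℝ) < β := by exact_mod_cast hαβ
    linarith
  unfold ramp
  congr 1
  push_cast
  field_simp
  ring

lemma ramp_eq_zero {α β : ℚ} (hαβ : α < β) {t : ℝ} (ht : t ≤ α) : ramp α β t = 0 := by
  have h : (0 : ℝ) < (β : ℝ) - α := by
    have : (α : ℝ) < β := by exact_mod_cast hαβ
    linarith
  rw [ramp_eq α β hαβ]
  exact Real.smoothTransition.zero_of_nonpos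
    (div_nonpos_of_nonpos_of_nonneg (by linarith) h.le)

lemma ramp_eq_one {α β : ℚ} (hαβ : α < β) {t : ℝ} (ht : (β : ℝ) ≤ t) : ramp α β t = 1 := by
  have h : (0 : ℝ) < (β : ℝ) - α := by
    have : (α : ℝ) < β := by exact_mod_cast hαβ
    linarith
  rw [ramp_eq α β hαβ]
  exact Real.smoothTransition.one_of_one_le ((one_le_div h).2 (by linarith))

lemma ramp_nonneg (α β : ℚ) (t : ℝ) : 0 ≤ ramp α β t := Real.smoothTransition.nonneg _

lemma ramp_le_one (α β : ℚ) (t : ℝ) : ramp α β t ≤ 1 := Real.smoothTransition.le_one _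

lemma ramp_contDiff (α β : ℚ) : ContDiff ℝ ∞ (ramp α β) := by
  unfold ramp
  exact (Real.smoothTransition.contDiff (n := ⊤)).comp (by fun_prop)

lemma ramp_eff (kit : Kit) (α β : ℚ) : Eff1 (ramp α β) :=
  kit.comp_affine _ _ kit.sigma

lemma ramp_hasDerivAt (α β : ℚ) (t : ℝ) : HasDerivAt (ramp α β) (deriv (ramp α β) t) t :=
  (((ramp_contDiff α β).differentiable (by simp)) t).hasDerivAt

lemma deriv_ramp_eq_zero {α β : ℚ} (hαβ : α < β) {t : ℝ} (ht : t ∉ Ioo (α : ℝ) (β : ℝ)) :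
    deriv (ramp α β) t = 0 := by
  rcases le_or_gt t (α : ℝ) with h | h
  · exact deriv_eq_zero_of_eq_zero' (ramp_nonneg α β) (ramp_eq_zero hαβ h)
  · have h' : (β : ℝ) ≤ t := not_lt.1 fun hlt => ht ⟨h, hlt⟩
    exact deriv_eq_zero_of_eq_one' (ramp_le_one α β) (ramp_eq_one hαβ h')

/-! ## Bumps -/

/-- A smooth bump: `1` on `|x - c| ≤ w + ε`, `0` on `|x - c| ≥ w + 2 ε`. -/
noncomputable def bump (c w ε : ℚ) : ℝ → ℝ := fun x =>
  Real.smoothTransition (((1 / ε : ℚ) : ℝ) * x + ((-(c - w - 2 * ε) / ε : ℚ) : ℝ)) *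
    Real.smoothTransition (((-1 / ε : ℚ) : ℝ) * x + (((c + w + 2 * ε) / ε : ℚ) : ℝ))

lemma bump_eq (c w ε : ℚ) (hε : 0 < ε) (x : ℝ) :
    bump c w ε x = Real.smoothTransition ((x - (c - w - 2 * ε)) / ε) *
      Real.smoothTransition (((c + w + 2 * ε) - x) / ε) := by
  have h : (ε : ℝ) ≠ 0 := by exact_mod_cast hε.ne'
  unfold bump
  congr 2
  · push_cast
    field_simp
    ring
  · push_cast
    field_simp
    ring

lemma bump_eq_one {c w ε : ℚ} (hε : 0 < ε) {x : ℝ} (hx : |x - c| ≤ w + ε) :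
    bump c w ε x = 1 := by
  have h : (0 : ℝ) < ε := by exact_mod_cast hε
  rw [bump_eq c w ε hε, Real.smoothTransition.one_of_one_le, Real.smoothTransition.one_of_one_le,
    mul_one]
  · rw [one_le_div h]
    linarith [(abs_le.1 hx).2]
  · rw [one_le_div h]
    linarith [(abs_le.1 hx).1]

lemma bump_eq_zero {c w ε : ℚ} (hε : 0 < ε) {x : ℝ} (hx : (w : ℝ) + 2 * ε ≤ |x - c|) :
    bump c w ε x = 0 := by
  have h : (0 : ℝ) < ε := by exact_mod_cast hε
  rw [bump_eq c w ε hε]
  rcases le_abs'.1 hx with h1 | h1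
  · rw [Real.smoothTransition.zero_of_nonpos, zero_mul]
    exact div_nonpos_of_nonpos_of_nonneg (by linarith) h.le
  · rw [Real.smoothTransition.zero_of_nonpos (x := ((c + w + 2 * ε) - x) / ε), mul_zero]
    exact div_nonpos_of_nonpos_of_nonneg (by linarith) h.le

lemma bump_nonneg (c w ε : ℚ) (x : ℝ) : 0 ≤ bump c w ε x :=
  mul_nonneg (Real.smoothTransition.nonneg _) (Real.smoothTransition.nonneg _)

lemma bump_le_one (c w ε : ℚ) (x : ℝ) : bump c w ε x ≤ 1 :=
  mul_le_one₀ (Real.smoothTransition.le_one _) (Real.smoothTransition.nonneg _)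
    (Real.smoothTransition.le_one _)

lemma bump_contDiff (c w ε : ℚ) : ContDiff ℝ ∞ (bump c w ε) := by
  unfold bump
  exact ((Real.smoothTransition.contDiff (n := ⊤)).comp (by fun_prop)).mul
    ((Real.smoothTransition.contDiff (n := ⊤)).comp (by fun_prop))

lemma bump_eff (kit : Kit) (c w ε : ℚ) : Eff1 (bump c w ε) :=
  kit.mul (kit.comp_affine _ _ kit.sigma) (kit.comp_affine _ _ kit.sigma)

lemma bump_hasDerivAt (c w ε : ℚ) (x : ℝ) : HasDerivAt (bump c w ε) (deriv (bump c w ε) x) x :=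
  (((bump_contDiff c w ε).differentiable (by simp)) x).hasDerivAt

lemma deriv_bump_of_plateau {c w ε : ℚ} (hε : 0 < ε) {x : ℝ} (hx : |x - c| ≤ w + ε) :
    deriv (bump c w ε) x = 0 :=
  deriv_eq_zero_of_eq_one' (bump_le_one c w ε) (bump_eq_one hε hx)

lemma deriv_bump_of_off {c w ε : ℚ} (hε : 0 < ε) {x : ℝ} (hx : (w : ℝ) + 2 * ε ≤ |x - c|) :
    deriv (bump c w ε) x = 0 :=
  deriv_eq_zero_of_eq_zero' (bump_nonneg c w ε) (bump_eq_zero hε hx)

/-- The bump times a linear factor. -/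
noncomputable def xbump (q c w ε : ℚ) : ℝ → ℝ := fun x => (x - (q : ℝ)) * bump c w ε x

lemma xbump_hasDerivAt (q c w ε : ℚ) (x : ℝ) :
    HasDerivAt (xbump q c w ε) (bump c w ε x + (x - (q : ℝ)) * deriv (bump c w ε) x) x := by
  have h := ((hasDerivAt_id x).sub_const (q : ℝ)).mul (bump_hasDerivAt c w ε x)
  simp only [id, one_mul] at h
  exact h

lemma xbump_contDiff (q c w ε : ℚ) : ContDiff ℝ ∞ (xbump q c w ε) := by
  unfold xbump
  exact (contDiff_id.sub contDiff_const).mul (bump_contDiff c w ε)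

lemma xbump_eff (kit : Kit) (q c w ε : ℚ) (hε : 0 < ε) : Eff1 (xbump q c w ε) := by
  obtain ⟨R, hR⟩ := exists_nat_ge (|(c : ℝ)| + |(w : ℝ)| + 2 * (ε : ℝ))
  refine kit.sub_mul q R (fun x hx => bump_eq_zero hε ?_) (bump_eff kit c w ε)
  have h1 : |x| - |(c : ℝ)| ≤ |x - c| := abs_sub_abs_le_abs_sub x c
  have h2 : (w : ℝ) ≤ |(w : ℝ)| := le_abs_self _
  linarith


/-! ## The family of 1-D factors -/

/-- Bumps in each coordinate, times a linear factor where `L j`. -/
noncomputable def fam (C H : Fin 3 → ℚ) (ε : ℚ) (L : Fin 3 → Bool) (q : Fin 3 → ℚ) :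
    Fin 3 → ℝ → ℝ :=
  fun j => if L j then xbump (q j) (C j) (H j) ε else bump (C j) (H j) ε

lemma fam_contDiff (C H : Fin 3 → ℚ) (ε : ℚ) (L : Fin 3 → Bool) (q : Fin 3 → ℚ) (j : Fin 3) :
    ContDiff ℝ ∞ (fam C H ε L q j) := by
  unfold fam
  split_ifs
  · exact xbump_contDiff _ _ _ _
  · exact bump_contDiff _ _ _

lemma fam_eff (kit : Kit) (C H : Fin 3 → ℚ) (ε : ℚ) (hε : 0 < ε) (L : Fin 3 → Bool)
    (q : Fin 3 → ℚ) (j : Fin 3) : Eff1 (fam C H ε L q j) := by
  unfold fam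
  split_ifs
  · exact xbump_eff kit _ _ _ _ hε
  · exact bump_eff kit _ _ _

lemma fam_plateau {C H : Fin 3 → ℚ} {ε : ℚ} (hε : 0 < ε) (L : Fin 3 → Bool) (q : Fin 3 → ℚ)
    {j : Fin 3} {x : ℝ} (hx : |x - C j| ≤ H j + ε) :
    fam C H ε L q j x = if L j then x - (q j : ℝ) else 1 := by
  unfold fam
  split_ifs
  · simp only [xbump, bump_eq_one hε hx, mul_one]
  · exact bump_eq_one hε hx

lemma deriv_fam_plateau {C H : Fin 3 → ℚ} {ε : ℚ} (hε : 0 < ε) (L : Fin 3 → Bool)
    (q : Fin 3 → ℚ) {j : Fin 3} {x : ℝ} (hx : |x - C j| ≤ H j + ε) :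
    deriv (fam C H ε L q j) x = if L j then 1 else 0 := by
  unfold fam
  split_ifs
  · rw [(xbump_hasDerivAt _ _ _ _ x).deriv, bump_eq_one hε hx, deriv_bump_of_plateau hε hx,
      mul_zero, add_zero]
  · exact deriv_bump_of_plateau hε hx

lemma fam_off {C H : Fin 3 → ℚ} {ε : ℚ} (hε : 0 < ε) (L : Fin 3 → Bool) (q : Fin 3 → ℚ)
    {j : Fin 3} {x : ℝ} (hx : (H j : ℝ) + 2 * ε ≤ |x - C j|) :
    fam C H ε L q j x = 0 := by
  unfold fam
  split_ifs
  · simp only [xbump, bump_eq_zero hε hx, mul_zero]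
  · exact bump_eq_zero hε hx

lemma deriv_fam_off {C H : Fin 3 → ℚ} {ε : ℚ} (hε : 0 < ε) (L : Fin 3 → Bool) (q : Fin 3 → ℚ)
    {j : Fin 3} {x : ℝ} (hx : (H j : ℝ) + 2 * ε ≤ |x - C j|) :
    deriv (fam C H ε L q j) x = 0 := by
  unfold fam
  split_ifs
  · rw [(xbump_hasDerivAt _ _ _ _ x).deriv, bump_eq_zero hε hx, deriv_bump_of_off hε hx,
      mul_zero, add_zero]
  · exact deriv_bump_of_off hε hx

lemma stream_fam_off (m : ℝ → ℝ) {C H : Fin 3 → ℚ} {ε : ℚ} (hε : 0 < ε) (L : Fin 3 → Bool)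
    (q : Fin 3 → ℚ) (a b : Fin 3) (t : ℝ) {x : Fin 3 → ℝ} (j : Fin 3)
    (hx : (H j : ℝ) + 2 * ε ≤ |x j - C j|) :
    streamField m (fam C H ε L q) a b (t, x) = 0 :=
  streamField_eq_zero_of_space m _ a b t x j (fam_off hε L q hx) (deriv_fam_off hε L q hx)

lemma stream_fam_compact (m : ℝ → ℝ) {α β : ℚ} (hm0 : ∀ t, t ∉ Ioo (α : ℝ) (β : ℝ) → m t = 0)
    (C H : Fin 3 → ℚ) {ε : ℚ} (hε : 0 < ε) (L : Fin 3 → Bool) (q : Fin 3 → ℚ) (a b : Fin 3) :
    HasCompactSupport (streamField m (fam C H ε L q) a b) := by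
  refine HasCompactSupport.intro
    (K := Icc (α : ℝ) (β : ℝ) ×ˢ (Set.univ.pi fun j : Fin 3 =>
      Icc ((C j : ℝ) - (H j + 2 * ε)) ((C j : ℝ) + (H j + 2 * ε))))
    (isCompact_Icc.prod (isCompact_univ_pi fun j => isCompact_Icc)) ?_
  rintro ⟨t, x⟩ hp
  by_cases ht : t ∈ Icc (α : ℝ) (β : ℝ)
  · have hx : ¬ x ∈ Set.univ.pi fun j : Fin 3 =>
        Icc ((C j : ℝ) - (H j + 2 * ε)) ((C j : ℝ) + (H j + 2 * ε)) :=
      fun hx => hp ⟨ht, hx⟩
    simp only [Set.mem_pi, Set.mem_univ, true_implies, not_forall] at hx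
    obtain ⟨j, hj⟩ := hx
    refine stream_fam_off m hε L q a b t j ?_
    by_contra hcon
    rw [not_le, abs_lt] at hcon
    exact hj ⟨by linarith [hcon.1], by linarith [hcon.2]⟩
  · exact streamField_eq_zero_of_time m _ a b
      (hm0 t fun h => ht ⟨h.1.le, h.2.le⟩) x

/-- Generic realisation by a cut-off stream field. -/
theorem realizes_of_stream (kit : Kit) {n : ℕ} {α β : ℚ} (hα : 0 ≤ α) (X Y : Conf n)
    (m : ℝ → ℝ) (hm : Eff1 m) (hm0 : ∀ t, t ∉ Ioo (α : ℝ) (β : ℝ) → m t = 0)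
    (C H : Fin 3 → ℚ) (ε : ℚ) (hε : 0 < ε) (L : Fin 3 → Bool) (q : Fin 3 → ℚ) (a b : Fin 3)
    (hab : a ≠ b)
    (hsol : ∀ i : Fin n, ∃ O : Set (Fin 3 → ℝ), IsOpen O ∧ box (X.c i) (X.h i) ⊆ O ∧
      ∀ x ∈ O, ∃ γ : ℝ → (Fin 3 → ℝ),
        (∀ t, HasDerivAt γ (streamField m (fam C H ε L q) a b (t, γ t)) t) ∧ γ 0 = x ∧
        γ (β : ℝ) = boxMap X Y i x) :
    Realizes n α β X Y :=
  realizes_of_solutions hα X Y _
    (kit.stream_contDiff a b hm.smooth (fam_contDiff C H ε L q))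
    (stream_fam_compact m hm0 C H hε L q a b)
    (kit.stream_effective a b hm (fam_eff kit C H ε hε L q))
    (fun _ hp => streamField_eq_zero_of_time m _ a b (hm0 _ hp) _)
    (kit.stream_div a b hab hm.smooth (fam_contDiff C H ε L q)) hsol

/-! ## Open neighbourhoods of boxes and margins -/

/-- The open `ε`-fattening of a rational box. -/
def fat (c h : Fin 3 → ℚ) (ε : ℚ) : Set (Fin 3 → ℝ) :=
  {x | ∀ j, |x j - (c j : ℝ)| < (h j : ℝ) + (ε : ℝ)}

lemma isOpen_fat (c h : Fin 3 → ℚ) (ε : ℚ) : IsOpen (fat c h ε) := by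
  have : fat c h ε = ⋂ j, {x : Fin 3 → ℝ | |x j - (c j : ℝ)| < (h j : ℝ) + (ε : ℝ)} := by
    ext x
    simp [fat]
  rw [this]
  exact isOpen_iInter_of_finite fun j => isOpen_lt (by fun_prop) (by fun_prop)

lemma box_subset_fat (c h : Fin 3 → ℚ) {ε : ℚ} (hε : 0 < ε) : box c h ⊆ fat c h ε := by
  intro x hx j
  have h : (0 : ℝ) < ε := by exact_mod_cast hε
  have := hx j
  linarith

lemma exists_pos_le_all {ι : Type*} [Fintype ι] (δ : ι → ℚ) (hδ : ∀ i, 0 < δ i) :
    ∃ ε : ℚ, 0 < ε ∧ ∀ i, ε ≤ δ i := by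
  rcases isEmpty_or_nonempty ι with h | h
  · exact ⟨1, one_pos, fun i => (h.false i).elim⟩
  · exact ⟨Finset.univ.inf' Finset.univ_nonempty δ,
      (Finset.lt_inf'_iff _).2 (fun i _ => hδ i), fun i => Finset.inf'_le _ (Finset.mem_univ i)⟩

lemma exists_margin {n : ℕ} (X : Conf n) (i : Fin n) (C H : Fin 3 → ℚ)
    (hv : ∀ i', i' ≠ i → Sep C H (X.c i') (X.h i')) :
    ∃ ε : ℚ, 0 < ε ∧ ∀ i', i' ≠ i → ∃ j, H j + X.h i' j + 3 * ε ≤ |C j - X.c i' j| := by
  classical
  have hv' : ∀ i', ∃ j : Fin 3, i' ≠ i → H j + X.h i' j < |C j - X.c i' j| := by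
    intro i'
    by_cases hi : i' = i
    · exact ⟨0, fun h => (h hi).elim⟩
    · obtain ⟨j, hj⟩ := hv i' hi
      exact ⟨j, fun _ => hj⟩
  choose j hj using hv'
  obtain ⟨ε, hε, hle⟩ := exists_pos_le_all
    (fun i' => if i' = i then (1 : ℚ) else (|C (j i') - X.c i' (j i')| - (H (j i') + X.h i' (j i'))) / 3)
    (fun i' => by
      by_cases hi : i' = i
      · simp [hi]
      · simp only [if_neg hi]
        have := hj i' hi
        linarith)
  refine ⟨ε, hε, fun i' hi => ⟨j i', ?_⟩⟩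
  have := hle i'
  simp only [if_neg hi] at this
  linarith

/-- A point near an inactive box lies off the support of the cut-off stream field. -/
lemma stream_stationary (m : ℝ → ℝ) {C H : Fin 3 → ℚ} {ε : ℚ} (hε : 0 < ε) (L : Fin 3 → Bool)
    (q : Fin 3 → ℚ) (a b : Fin 3) (c' h' : Fin 3 → ℚ) (j : Fin 3)
    (hsep : H j + h' j + 3 * ε ≤ |C j - c' j|) {x : Fin 3 → ℝ} (hx : x ∈ fat c' h' ε) (t : ℝ) :
    streamField m (fam C H ε L q) a b (t, x) = 0 := by
  refine stream_fam_off m hε L q a b t j ?_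
  have h1 : ((H j + h' j + 3 * ε : ℚ) : ℝ) ≤ ((|C j - c' j| : ℚ) : ℝ) := by exact_mod_cast hsep
  push_cast at h1
  have h2 := hx j
  have h3 : |(C j : ℝ) - c' j| ≤ |(C j : ℝ) - x j| + |x j - (c' j : ℝ)| := abs_sub_le _ _ _
  rw [abs_sub_comm (C j : ℝ) (x j)] at h3
  linarith

lemma hasDerivAt_add_single (x : Fin 3 → ℝ) (a : Fin 3) {g : ℝ → ℝ} {g' t : ℝ}
    (hg : HasDerivAt g g' t) :
    HasDerivAt (fun t => x + Pi.single a (g t)) (Pi.single a g') t := by
  refine hasDerivAt_pi.2 fun j => ?_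
  by_cases hj : j = a
  · subst hj
    simp only [Pi.add_apply, Pi.single_eq_same]
    exact hg.const_add _
  · simp only [Pi.add_apply, Pi.single_eq_of_ne hj, add_zero]
    exact hasDerivAt_const _ _

/-! ## Translations -/

lemma trans_plateau (c h : Fin 3 → ℚ) (a : Fin 3) (d ε : ℚ) {x : Fin 3 → ℝ}
    (hx : x ∈ fat c h ε) {ρ : ℝ} (h0 : 0 ≤ ρ) (h1 : ρ ≤ 1) (j : Fin 3) :
    |(x + Pi.single a ((d : ℝ) * ρ) : Fin 3 → ℝ) j - ((Function.update c a (c a + d / 2)) j : ℝ)| ≤
      ((Function.update h a (h a + |d| / 2)) j : ℝ) + ε := by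
  by_cases hj : j = a
  · subst hj
    simp only [Function.update_self, Pi.add_apply, Pi.single_eq_same]
    push_cast
    have hxj := hx j
    have e : x j + (d : ℝ) * ρ - ((c j : ℝ) + d / 2) = (x j - c j) + (d : ℝ) * (ρ - 1 / 2) := by
      ring
    have hρ : |ρ - 1 / 2| ≤ 1 / 2 := abs_le.2 ⟨by linarith, by linarith⟩
    have hd : |(d : ℝ) * (ρ - 1 / 2)| ≤ |(d : ℝ)| / 2 := by
      rw [abs_mul]
      have := mul_le_mul_of_nonneg_left hρ (abs_nonneg (d : ℝ))
      linarith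
    rw [e]
    have := abs_add_le (x j - (c j : ℝ)) ((d : ℝ) * (ρ - 1 / 2))
    linarith
  · simp only [Function.update_of_ne hj, Pi.add_apply, Pi.single_eq_of_ne hj, add_zero]
    exact (hx j).le

lemma boxMap_translate_self {n : ℕ} (X : Conf n) (hpos : X.Pos) (i : Fin n) (a : Fin 3) (d : ℚ)
    (x : Fin 3 → ℝ) : boxMap X (X.translate i a d) i x = x + Pi.single a (d : ℝ) := by
  funext j
  have h : (X.h i j : ℝ) ≠ 0 := by exact_mod_cast (hpos i j).ne'
  simp only [boxMap, Conf.translate, Function.update_self, Pi.add_apply]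
  push_cast
  rw [div_self h]
  by_cases hj : j = a
  · subst hj
    simp only [Function.update_self, Pi.single_eq_same]
    push_cast
    ring
  · simp only [Function.update_of_ne hj, Pi.single_eq_of_ne hj]
    ring

lemma boxMap_translate_other {n : ℕ} (X : Conf n) (hpos : X.Pos) (i : Fin n) (a : Fin 3) (d : ℚ)
    {i' : Fin n} (hi : i' ≠ i) (x : Fin 3 → ℝ) : boxMap X (X.translate i a d) i' x = x := by
  funext j
  have h : (X.h i' j : ℝ) ≠ 0 := by exact_mod_cast (hpos i' j).ne'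
  simp only [boxMap, Conf.translate, Function.update_of_ne hi]
  push_cast
  rw [div_self h]
  ring

theorem realizes_translate (kit : Kit) {n : ℕ} (X : Conf n) (hpos : X.Pos) (i : Fin n)
    (a : Fin 3) (d : ℚ) (hv : TransValid X i a d) (α β : ℚ) (hα : 0 ≤ α) (hαβ : α < β) :
    Realizes n α β X (X.translate i a d) := by
  obtain ⟨ε, hε, hsep⟩ := exists_margin X i (transHullC X i a d) (transHullH X i a d) hv
  have hab : a ≠ a + 1 := by
    have : ∀ a : Fin 3, a ≠ a + 1 := by decide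
    exact this a
  have hmE : Eff1 (fun t => (d : ℝ) * deriv (ramp α β) t) :=
    kit.const_mul d (kit.deriv (ramp_eff kit α β))
  have hm0 : ∀ t, t ∉ Ioo (α : ℝ) (β : ℝ) → (d : ℝ) * deriv (ramp α β) t = 0 := fun t ht => by
    rw [deriv_ramp_eq_zero hαβ ht, mul_zero]
  have hα' : (0 : ℝ) ≤ (α : ℝ) := by exact_mod_cast hα
  refine realizes_of_stream kit hα X _ (fun t => (d : ℝ) * deriv (ramp α β) t) hmE hm0
    (transHullC X i a d) (transHullH X i a d) ε hε (fun j => decide (j = a + 1)) (fun _ => 0)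
    a (a + 1) hab ?_
  intro i'
  refine ⟨fat (X.c i') (X.h i') ε, isOpen_fat _ _ _, box_subset_fat _ _ hε, fun x hx => ?_⟩
  by_cases hi : i' = i
  · subst hi
    refine ⟨fun t => x + Pi.single a ((d : ℝ) * ramp α β t), fun t => ?_, ?_, ?_⟩
    · have hplat : ∀ j, |(x + Pi.single a ((d : ℝ) * ramp α β t) : Fin 3 → ℝ) j -
          (transHullC X i' a d j : ℝ)|
          ≤ (transHullH X i' a d j : ℝ) + ε :=
        trans_plateau (X.c i') (X.h i') a d ε hx (ramp_nonneg α β t) (ramp_le_one α β t)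
      have hval : streamField (fun t => (d : ℝ) * deriv (ramp α β) t)
          (fam (transHullC X i' a d) (transHullH X i' a d) ε (fun j => decide (j = a + 1))
            (fun _ => 0)) a (a + 1) (t, x + Pi.single a ((d : ℝ) * ramp α β t)) =
          Pi.single a ((d : ℝ) * deriv (ramp α β) t) := by
        rw [streamField_plateau _ _ hab t _ (fun j hja hjb => ?_)]
        · rw [deriv_fam_plateau hε _ _ (hplat (a + 1)), fam_plateau hε _ _ (hplat a),
            deriv_fam_plateau hε _ _ (hplat a)]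
          simp [hab]
        · rw [fam_plateau hε _ _ (hplat j)]
          simp [hjb]
      rw [hval]
      exact hasDerivAt_add_single x a ((ramp_hasDerivAt α β t).const_mul (d : ℝ))
    · show x + Pi.single a ((d : ℝ) * ramp α β 0) = x
      rw [ramp_eq_zero hαβ hα', mul_zero, Pi.single_zero, add_zero]
    · show x + Pi.single a ((d : ℝ) * ramp α β (β : ℝ)) = _
      rw [ramp_eq_one hαβ le_rfl, mul_one, boxMap_translate_self X hpos]
  · refine ⟨fun _ => x, fun t => ?_, rfl, (boxMap_translate_other X hpos i a d hi x).symm⟩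
    obtain ⟨j, hj⟩ := hsep i' hi
    rw [stream_stationary _ hε _ _ a (a + 1) (X.c i') (X.h i') j hj hx t]
    exact hasDerivAt_const t x


/-! ## Squeezes -/

/-- The scale factor of a squeeze: from `1` (for `t ≤ α`) to `r` (for `t ≥ β`). -/
noncomputable def sfun (α β r : ℚ) : ℝ → ℝ := fun t =>
  ((1 : ℚ) : ℝ) + ((r - 1 : ℚ) : ℝ) * ramp α β t

lemma sfun_eq (α β r : ℚ) (t : ℝ) : sfun α β r t = 1 + ((r : ℝ) - 1) * ramp α β t := by
  unfold sfun
  push_cast
  ring

lemma sfun_eff (kit : Kit) (α β r : ℚ) : Eff1 (sfun α β r) :=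
  kit.add (kit.const 1) (kit.const_mul (r - 1) (ramp_eff kit α β))

lemma sfun_hasDerivAt (α β r : ℚ) (t : ℝ) :
    HasDerivAt (sfun α β r) (((r - 1 : ℚ) : ℝ) * deriv (ramp α β) t) t := by
  unfold sfun
  exact ((ramp_hasDerivAt α β t).const_mul _).const_add _

lemma sfun_ge (α β r : ℚ) (t : ℝ) : min 1 (r : ℝ) ≤ sfun α β r t := by
  rw [sfun_eq]
  have h0 := ramp_nonneg α β t
  have h1 := ramp_le_one α β t
  have hm1 : min 1 (r : ℝ) ≤ 1 := min_le_left _ _
  have hmr : min 1 (r : ℝ) ≤ r := min_le_right _ _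
  nlinarith [mul_nonneg (sub_nonneg.2 h1) (sub_nonneg.2 hm1), mul_nonneg h0 (sub_nonneg.2 hmr)]

lemma sfun_le (α β r : ℚ) (t : ℝ) : sfun α β r t ≤ max 1 (r : ℝ) := by
  rw [sfun_eq]
  have h0 := ramp_nonneg α β t
  have h1 := ramp_le_one α β t
  have hm1 : 1 ≤ max 1 (r : ℝ) := le_max_left _ _
  have hmr : (r : ℝ) ≤ max 1 (r : ℝ) := le_max_right _ _
  nlinarith [mul_nonneg (sub_nonneg.2 h1) (sub_nonneg.2 hm1), mul_nonneg h0 (sub_nonneg.2 hmr)]

lemma sfun_pos (α β : ℚ) {r : ℚ} (hr : 0 < r) (t : ℝ) : 0 < sfun α β r t :=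
  lt_of_lt_of_le (lt_min one_pos (by exact_mod_cast hr)) (sfun_ge α β r t)

/-- The explicit solution of the squeeze in the `(a, b)`-plane about the centre `c`. -/
noncomputable def sqCurve (c : Fin 3 → ℚ) (a b : Fin 3) (x : Fin 3 → ℝ) (s : ℝ) : Fin 3 → ℝ :=
  fun j => if j = a then (c a : ℝ) + s * (x a - c a)
    else if j = b then (c b : ℝ) + (x b - c b) / s else x j

lemma sq_scalar {r ε s : ℝ} (hr : 0 < r) (hε : 0 < ε) (hs1 : min 1 r ≤ s) (hs2 : s ≤ max 1 r) :
    0 < s ∧ (∀ w : ℝ, 0 ≤ w → s * w ≤ max w (r * w)) ∧ (∀ w : ℝ, 0 ≤ w → w / s ≤ max w (w / r)) ∧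
      s * (ε * min r (1 / r)) ≤ ε ∧ (ε * min r (1 / r)) / s ≤ ε ∧ ε * min r (1 / r) ≤ ε := by
  have hspos : 0 < s := lt_of_lt_of_le (lt_min one_pos hr) hs1
  rcases le_total r 1 with hr1 | hr1
  · have hs1' : r ≤ s := by rwa [min_eq_right hr1] at hs1
    have hs2' : s ≤ 1 := by rwa [max_eq_left hr1] at hs2
    have hinv : 1 ≤ 1 / r := by rw [le_div_iff₀ hr]; linarith
    have hmin : min r (1 / r) = r := min_eq_left (hr1.trans hinv)
    rw [hmin]
    refine ⟨hspos, fun w hw => ?_, fun w hw => ?_, ?_, ?_, ?_⟩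
    · exact le_trans (by nlinarith) (le_max_left _ _)
    · exact le_trans (div_le_div_of_nonneg_left hw hr hs1') (le_max_right _ _)
    · nlinarith [mul_nonneg hε.le hr.le, mul_pos hε hr]
    · rw [div_le_iff₀ hspos]
      nlinarith
    · nlinarith
  · have hs1' : 1 ≤ s := by rwa [min_eq_left hr1] at hs1
    have hs2' : s ≤ r := by rwa [max_eq_right hr1] at hs2
    have hinv : 1 / r ≤ 1 := by rw [div_le_iff₀ hr]; linarith
    have hmin : min r (1 / r) = 1 / r := min_eq_right (hinv.trans hr1)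
    rw [hmin]
    have hεr : ε * (1 / r) = ε / r := by ring
    have hεr' : ε / r ≤ ε := by rw [div_le_iff₀ hr]; nlinarith
    have hεr0 : 0 < ε / r := div_pos hε hr
    rw [hεr]
    refine ⟨hspos, fun w hw => ?_, fun w hw => ?_, ?_, ?_, hεr'⟩
    · exact le_trans (by nlinarith) (le_max_right _ _)
    · refine le_trans ?_ (le_max_left _ _)
      rw [div_le_iff₀ hspos]
      nlinarith
    · have : s * (ε / r) = ε * (s / r) := by ring
      rw [this]
      have : s / r ≤ 1 := by rw [div_le_iff₀ hr]; linarith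
      nlinarith
    · rw [div_le_iff₀ hspos]
      nlinarith

lemma sq_plateau (c h : Fin 3 → ℚ) {a b : Fin 3} (hab : a ≠ b) {r ε : ℚ} (hr : 0 < r)
    (hε : 0 < ε) (hh : ∀ j, 0 < h j) {x : Fin 3 → ℝ} (hx : x ∈ fat c h (ε * min r (1 / r)))
    {s : ℝ} (hs1 : min 1 (r : ℝ) ≤ s) (hs2 : s ≤ max 1 (r : ℝ)) (j : Fin 3) :
    |sqCurve c a b x s j - (c j : ℝ)| ≤
      ((Function.update (Function.update h a (max (h a) (r * h a))) b (max (h b) (h b / r))) j : ℝ)
        + ε := by
  have hrR : (0 : ℝ) < r := by exact_mod_cast hr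
  have hεR : (0 : ℝ) < ε := by exact_mod_cast hε
  obtain ⟨hspos, F1, F3, F2, F4, F5⟩ := sq_scalar hrR hεR hs1 hs2
  have hxj : |x j - (c j : ℝ)| < (h j : ℝ) + (ε : ℝ) * min (r : ℝ) (1 / r) := by
    have := hx j
    push_cast at this
    exact this
  have hhj : (0 : ℝ) < (h j : ℝ) := by exact_mod_cast hh j
  by_cases hja : j = a
  · subst hja
    simp only [sqCurve, Function.update_of_ne hab, Function.update_self]
    push_cast
    rw [add_sub_cancel_left, abs_mul, abs_of_pos hspos]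
    have h1 : s * |x j - (c j : ℝ)| ≤ s * ((h j : ℝ) + (ε : ℝ) * min (r : ℝ) (1 / r)) :=
      mul_le_mul_of_nonneg_left hxj.le hspos.le
    have h2 := F1 (h j : ℝ) hhj.le
    rw [mul_add] at h1
    linarith
  · by_cases hjb : j = b
    · subst hjb
      simp only [sqCurve, if_neg hja, Function.update_self]
      push_cast
      rw [add_sub_cancel_left, abs_div, abs_of_pos hspos]
      have h1 : |x j - (c j : ℝ)| / s ≤ ((h j : ℝ) + (ε : ℝ) * min (r : ℝ) (1 / r)) / s :=
        div_le_div_of_nonneg_right hxj.le hspos.le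
      have h2 := F3 (h j : ℝ) hhj.le
      rw [add_div] at h1
      linarith
    · simp only [sqCurve, if_neg hja, if_neg hjb, Function.update_of_ne hjb,
        Function.update_of_ne hja]
      linarith

lemma boxMap_squeeze_self {n : ℕ} (X : Conf n) (hpos : X.Pos) (i : Fin n) {a b : Fin 3}
    (hab : a ≠ b) (r : ℚ) (hr : 0 < r) (x : Fin 3 → ℝ) :
    boxMap X (X.squeeze i a b r) i x = sqCurve (X.c i) a b x (r : ℝ) := by
  funext j
  have h : (X.h i j : ℝ) ≠ 0 := by exact_mod_cast (hpos i j).ne'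
  have hr' : (r : ℝ) ≠ 0 := by exact_mod_cast hr.ne'
  simp only [boxMap, Conf.squeeze, Function.update_self, sqCurve]
  by_cases hja : j = a
  · subst hja
    rw [if_pos rfl, Function.update_of_ne hab, Function.update_self]
    push_cast
    field_simp
  · rw [if_neg hja]
    by_cases hjb : j = b
    · subst hjb
      rw [if_pos rfl, Function.update_self]
      push_cast
      field_simp
    · rw [if_neg hjb, Function.update_of_ne hjb, Function.update_of_ne hja]
      push_cast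
      rw [div_self h]
      ring

lemma boxMap_squeeze_other {n : ℕ} (X : Conf n) (hpos : X.Pos) (i : Fin n) (a b : Fin 3) (r : ℚ)
    {i' : Fin n} (hi : i' ≠ i) (x : Fin 3 → ℝ) : boxMap X (X.squeeze i a b r) i' x = x := by
  funext j
  have h : (X.h i' j : ℝ) ≠ 0 := by exact_mod_cast (hpos i' j).ne'
  simp only [boxMap, Conf.squeeze, Function.update_of_ne hi]
  push_cast
  rw [div_self h]
  ring

theorem realizes_squeeze (kit : Kit) {n : ℕ} (X : Conf n) (hpos : X.Pos) (i : Fin n)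
    (a b : Fin 3) (hab : a ≠ b) (r : ℚ) (hr : 0 < r) (hv : SqValid X i a b r) (α β : ℚ)
    (hα : 0 ≤ α) (hαβ : α < β) : Realizes n α β X (X.squeeze i a b r) := by
  obtain ⟨ε, hε, hsep⟩ := exists_margin X i (X.c i) (sqHullH X i a b r) hv
  have hrR : (0 : ℝ) < r := by exact_mod_cast hr
  obtain ⟨G0, hG0⟩ := exists_nat_one_div_lt (lt_min one_pos hrR : (0 : ℝ) < min 1 (r : ℝ))
  have hlow : ∀ t, 1 / (((G0 + 1 : ℕ)) : ℝ) ≤ sfun α β r t := fun t => by
    have := sfun_ge α β r t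
    push_cast
    linarith
  have hmE : Eff1 (fun t => deriv (sfun α β r) t / sfun α β r t) :=
    kit.div (G0 + 1) (Nat.succ_pos _) hlow (kit.deriv (sfun_eff kit α β r)) (sfun_eff kit α β r)
  have hds : ∀ t, deriv (sfun α β r) t = ((r - 1 : ℚ) : ℝ) * deriv (ramp α β) t := fun t =>
    (sfun_hasDerivAt α β r t).deriv
  have hm0 : ∀ t, t ∉ Ioo (α : ℝ) (β : ℝ) → deriv (sfun α β r) t / sfun α β r t = 0 :=
    fun t ht => by rw [hds, deriv_ramp_eq_zero hαβ ht, mul_zero, zero_div]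
  have hα' : (0 : ℝ) ≤ (α : ℝ) := by exact_mod_cast hα
  refine realizes_of_stream kit hα X _ (fun t => deriv (sfun α β r) t / sfun α β r t) hmE hm0
    (X.c i) (sqHullH X i a b r) ε hε (fun j => decide (j = a) || decide (j = b)) (X.c i)
    a b hab ?_
  intro i'
  by_cases hi : i' = i
  · subst hi
    have hε' : 0 < ε * min r (1 / r) := mul_pos hε (lt_min hr (one_div_pos.2 hr))
    refine ⟨fat (X.c i') (X.h i') (ε * min r (1 / r)), isOpen_fat _ _ _,
      box_subset_fat _ _ hε', fun x hx => ?_⟩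
    refine ⟨fun t => sqCurve (X.c i') a b x (sfun α β r t), fun t => ?_, ?_, ?_⟩
    · have hplat : ∀ j, |sqCurve (X.c i') a b x (sfun α β r t) j - (X.c i' j : ℝ)| ≤
          (sqHullH X i' a b r j : ℝ) + ε :=
        sq_plateau (X.c i') (X.h i') hab hr hε (hpos i') hx (sfun_ge α β r t) (sfun_le α β r t)
      have hval : streamField (fun t => deriv (sfun α β r) t / sfun α β r t)
          (fam (X.c i') (sqHullH X i' a b r) ε (fun j => decide (j = a) || decide (j = b))
            (X.c i')) a b (t, sqCurve (X.c i') a b x (sfun α β r t)) =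
          Pi.single a (deriv (sfun α β r) t / sfun α β r t *
              (sfun α β r t * (x a - (X.c i' a : ℝ)))) -
            Pi.single b (deriv (sfun α β r) t / sfun α β r t *
              ((x b - (X.c i' b : ℝ)) / sfun α β r t)) := by
        rw [streamField_plateau _ _ hab t _ (fun j hja hjb => ?_)]
        · rw [deriv_fam_plateau hε _ _ (hplat b), fam_plateau hε _ _ (hplat a),
            deriv_fam_plateau hε _ _ (hplat a), fam_plateau hε _ _ (hplat b)]
          simp [sqCurve, hab.symm]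
        · rw [fam_plateau hε _ _ (hplat j)]
          simp [hja, hjb]
      rw [hval]
      refine hasDerivAt_pi.2 fun j => ?_
      have hs := sfun_hasDerivAt α β r t
      have hsne : sfun α β r t ≠ 0 := (sfun_pos α β hr t).ne'
      by_cases hja : j = a
      · subst hja
        simp only [sqCurve, Pi.sub_apply, Pi.single_eq_same,
          Pi.single_eq_of_ne hab, sub_zero]
        refine ((hs.mul_const _).const_add _).congr_deriv ?_
        rw [hds]
        field_simp
      · by_cases hjb : j = b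
        · subst hjb
          simp only [sqCurve, if_neg hja, Pi.sub_apply, Pi.single_eq_same,
            Pi.single_eq_of_ne hja, zero_sub]
          refine (((hasDerivAt_const t _).div hs hsne).const_add _).congr_deriv ?_
          rw [hds]
          field_simp
          ring
        · simp only [sqCurve, if_neg hja, if_neg hjb, Pi.sub_apply, Pi.single_eq_of_ne hja,
            Pi.single_eq_of_ne hjb, sub_zero]
          exact hasDerivAt_const _ _
    · show sqCurve (X.c i') a b x (sfun α β r 0) = x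
      rw [sfun_eq, ramp_eq_zero hαβ hα', mul_zero, add_zero]
      funext j
      simp only [sqCurve]
      split_ifs with h1 h2
      · subst h1; ring
      · subst h2; simp
      · rfl
    · show sqCurve (X.c i') a b x (sfun α β r (β : ℝ)) = _
      rw [sfun_eq, ramp_eq_one hαβ le_rfl, mul_one, add_sub_cancel,
        boxMap_squeeze_self X hpos i' hab r hr]
  · refine ⟨fat (X.c i') (X.h i') ε, isOpen_fat _ _ _, box_subset_fat _ _ hε, fun x hx =>
      ⟨fun _ => x, fun t => ?_, rfl, (boxMap_squeeze_other X hpos i a b r hi x).symm⟩⟩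
    obtain ⟨j, hj⟩ := hsep i' hi
    rw [stream_stationary _ hε _ _ a b (X.c i') (X.h i') j hj hx t]
    exact hasDerivAt_const t x

end Crest.Agent.Helper7
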