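import Mathlib
import Crest.Prelude.Def_BoxFlow
import Crest.Agent.BoxFlow.Defs
import Crest.Agent.Helper7.BoxFlowCompose
import Crest.Agent.Helper7.BoxFlowMoves

/-!
# S0170: assembly (package W9)

* `realizes_of_reach`: reachability by valid elementary moves implies realisability by a flow.
* `boxflow_of_kit`: the statement of S0170, given the hypothesis bundle `Kit` (packages W1-W5)
  and the geometric facts of package W8 (`sep_of_disjoint`, `reach_of_disjoint`).
-/

set_option autoImplicit false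

open Set
open scoped ContDiff
open Crest.AnalysisR.BoxFlow Crest.Agent.BoxFlow

namespace Crest.Agent.Helper7

lemma pos_translate {n : ℕ} {X : Conf n} (hX : X.Pos) (i : Fin n) (a : Fin 3) (d : ℚ) :
    (X.translate i a d).Pos := hX

lemma pos_squeeze {n : ℕ} {X : Conf n} (hX : X.Pos) (i : Fin n) (a b : Fin 3) {r : ℚ}
    (hr : 0 < r) : (X.squeeze i a b r).Pos := by
  intro i' j
  simp only [Conf.squeeze]
  by_cases hi : i' = i
  · subst hi
    rw [Function.update_self]
    by_cases hjb : j = b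
    · subst hjb
      rw [Function.update_self]
      exact div_pos (hX i' j) hr
    · rw [Function.update_of_ne hjb]
      by_cases hja : j = a
      · subst hja
        rw [Function.update_self]
        exact mul_pos hr (hX i' j)
      · rw [Function.update_of_ne hja]
        exact hX i' j
  · rw [Function.update_of_ne hi]
    exact hX i' j

/-- **W9.** Reachability by valid elementary moves implies realisability on any time interval. -/
theorem realizes_of_reach (kit : Kit) {n : ℕ} {X Y : Conf n} (h : Reach X Y) (hX : X.Pos)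
    (α β : ℚ) (hα : 0 ≤ α) (hαβ : α < β) : Realizes n α β X Y := by
  induction h generalizing α with
  | refl X => exact realizes_refl kit α β X hX
  | translate X i a d hpos hv hZ ih =>
    have hmid1 : α < (α + β) / 2 := by linarith
    have hmid2 : (α + β) / 2 < β := by linarith
    have hpos' : (X.translate i a d).Pos := pos_translate hpos i a d
    exact realizes_trans kit hpos' hpos hmid1.le hmid2.le hα
      (realizes_translate kit X hpos i a d hv α _ hα hmid1)
      (ih hpos' _ (hα.trans hmid1.le) hmid2)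
  | squeeze X i a b r hpos hab hr hv hZ ih =>
    have hmid1 : α < (α + β) / 2 := by linarith
    have hmid2 : (α + β) / 2 < β := by linarith
    have hpos' : (X.squeeze i a b r).Pos := pos_squeeze hpos i a b hr
    exact realizes_trans kit hpos' hpos hmid1.le hmid2.le hα
      (realizes_squeeze kit X hpos i a b hab r hr hv α _ hα hmid1)
      (ih hpos' _ (hα.trans hmid1.le) hmid2)

/-- The statement of S0170 from `Kit` and the geometry package. -/
theorem boxflow_of_kit (kit : Kit)
    (hsep : ∀ (c h c' h' : Fin 3 → ℚ), (∀ j, 0 < h j) → (∀ j, 0 < h' j) →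
      Disjoint (box c h) (box c' h') → Sep c h c' h')
    (hreach : ∀ {n : ℕ} (X Y : Conf n), X.Pos → X.Disj → Y.Pos → Y.Disj →
      (∀ i, ∏ j : Fin 3, Y.h i j / X.h i j = 1) → Reach X Y)
    (n : ℕ) (a b h k : Fin n → Fin 3 → ℚ)
    (hh : ∀ i j, 0 < h i j) (hk : ∀ i j, 0 < k i j)
    (ha : Pairwise fun i i' => Disjoint (box (a i) (h i)) (box (a i') (h i')))
    (hb : Pairwise fun i i' => Disjoint (box (b i) (k i)) (box (b i') (k i')))
    (hvol : ∀ i, ∏ j : Fin 3, k i j / h i j = 1) :
    ∃ (U : Field) (Φ : ℝ → (Fin 3 → ℝ) → (Fin 3 → ℝ)),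
      ContDiff ℝ ∞ U ∧ HasCompactSupport U ∧ Effective U ∧
      (∀ p : ℝ × (Fin 3 → ℝ), p.1 ∉ Set.Icc (1 / 4 : ℝ) (3 / 4) → U p = 0) ∧
      (∀ p : ℝ × (Fin 3 → ℝ), spaceDiv U p = 0) ∧ IsFlow U Φ ∧
      ∀ i : Fin n, ∃ O : Set (Fin 3 → ℝ), IsOpen O ∧ box (a i) (h i) ⊆ O ∧
        ∀ x ∈ O, Φ 1 x = fun j => (b i j : ℝ) + ((k i j / h i j : ℚ) : ℝ) * (x j - (a i j : ℝ)) := by
  set X : Conf n := ⟨a, h⟩ with hXdef
  set Y : Conf n := ⟨b, k⟩ with hYdef
  have hXpos : X.Pos := hh
  have hYpos : Y.Pos := hk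
  have hXd : X.Disj := fun i i' hii' => hsep _ _ _ _ (hh i) (hh i') (ha hii')
  have hYd : Y.Disj := fun i i' hii' => hsep _ _ _ _ (hk i) (hk i') (hb hii')
  have hR : Reach X Y := hreach X Y hXpos hXd hYpos hYd hvol
  obtain ⟨U, Φ, hU, hc, hE, hz, hdiv, hΦ, -, hafter, hbox⟩ :=
    realizes_of_reach kit hR hXpos (1 / 4) (3 / 4) (by norm_num) (by norm_num)
  have c1 : ((1 / 4 : ℚ) : ℝ) = 1 / 4 := by norm_num
  have c3 : ((3 / 4 : ℚ) : ℝ) = 3 / 4 := by norm_num
  rw [c1, c3] at hz
  rw [c3] at hafter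
  refine ⟨U, Φ, hU, hc, hE, fun p hp => hz p (fun h => hp ⟨h.1.le, h.2.le⟩), hdiv, hΦ, fun i => ?_⟩
  obtain ⟨O, hO, hsub, hmap⟩ := hbox i
  refine ⟨O, hO, hsub, fun x hx => ?_⟩
  have h1 := hafter 1 (by norm_num) x
  have h2 := hmap x hx
  rw [c3] at h2
  rw [h1, h2]
  rfl

end Crest.Agent.Helper7
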