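import Mathlib
import Crest.Prelude.Def_BoxFlow
import Crest.Agent.BoxFlow.Defs

/-!
# S0170: exploding a configuration along axis `0` (package W8c)

`reach_explode`: a configuration of pairwise separated boxes inside `[-R, R]^3` can be moved, by
valid translations along axis `0`, to a configuration in which box `i` is shifted by `d i`, the
shifts being pairwise `4 R` apart.
-/

set_option autoImplicit false

open Crest.AnalysisR.BoxFlow Crest.Agent.BoxFlow

namespace Crest.Agent.Helper7

/-- Transitivity of reachability (local copy). -/
theorem reach_trans' {n : ℕ} {X Y Z : Conf n} (h1 : Reach X Y) (h2 : Reach Y Z) : Reach X Z := by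
  induction h1 with
  | refl X => exact h2
  | translate X i a d hpos hv hZ ih => exact Reach.translate X i a d hpos hv (ih h2)
  | squeeze X i a b r hpos hab hr hv hZ ih => exact Reach.squeeze X i a b r hpos hab hr hv (ih h2)

/-- The configuration `Z` with box `i` shifted by `d i` along axis `0`. -/
def shifted {n : ℕ} (Z : Conf n) (d : Fin n → ℚ) : Conf n :=
  ⟨fun i => Function.update (Z.c i) 0 (Z.c i 0 + d i), Z.h⟩

lemma shifted_zero {n : ℕ} (Z : Conf n) : shifted Z (fun _ => 0) = Z := by
  unfold shifted
  simp only [add_zero, Function.update_eq_self]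

lemma shifted_translate {n : ℕ} (Z : Conf n) (d : Fin n → ℚ) (istar : Fin n) (D : ℚ)
    (hd0 : d istar = 0) :
    (shifted Z d).translate istar 0 D = shifted Z (Function.update d istar D) := by
  unfold shifted Conf.translate
  simp only [Conf.mk.injEq, and_true]
  funext i
  by_cases hi : i = istar
  · subst hi
    rw [Function.update_self, Function.update_self, Function.update_idem, hd0, add_zero,
      Function.update_self]
  · rw [Function.update_of_ne hi, Function.update_of_ne hi]

lemma explode_step {n : ℕ} (Z : Conf n) (hZ : Z.Pos) (hd : Z.Disj) (R : ℚ)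
    (hR : ∀ i j, |Z.c i j| + Z.h i j ≤ R) (T : Finset (Fin n)) (d : Fin n → ℚ) (D : ℚ)
    (hD : 0 ≤ D) (hd0 : ∀ i, i ∉ T → d i = 0) (hdT : ∀ i ∈ T, D + 4 * R ≤ d i)
    (istar : Fin n) (hi : istar ∉ T)
    (hmax : ∀ i, i ∉ T → Z.c i 0 + Z.h i 0 ≤ Z.c istar 0 + Z.h istar 0) :
    TransValid (shifted Z d) istar 0 D := by
  intro i' hi'
  have hRpos : 0 < R := by
    have h1 := hR istar 0
    have h2 := hZ istar 0
    have h3 := abs_nonneg (Z.c istar 0)
    linarith
  have hds : d istar = 0 := hd0 istar hi
  by_cases hT : i' ∈ T
  · -- a box that has already been moved: far to the right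
    refine ⟨0, ?_⟩
    simp only [transHullH, transHullC, shifted, Function.update_self, hds, add_zero]
    rw [abs_of_nonneg hD]
    have h1 := hR istar 0
    have h2 := hR i' 0
    have h3 := hdT i' hT
    have h4 := le_abs_self (Z.c istar 0)
    have h5 := neg_abs_le (Z.c i' 0)
    refine lt_abs.2 (Or.inr ?_)
    linarith
  · -- an unmoved box
    have hd' : d i' = 0 := hd0 i' hT
    obtain ⟨j, hj⟩ := hd istar i' (Ne.symm hi')
    by_cases hj0 : j = 0
    · subst hj0
      refine ⟨0, ?_⟩
      simp only [transHullH, transHullC, shifted, Function.update_self, hds, hd', add_zero]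
      rw [abs_of_nonneg hD]
      have hm := hmax i' hT
      have hpos := hZ i' 0
      rcases lt_abs.1 hj with h | h
      · refine lt_abs.2 (Or.inl ?_)
        linarith
      · exfalso
        linarith
    · refine ⟨j, ?_⟩
      simp only [transHullH, transHullC, shifted, Function.update_of_ne hj0]
      exact hj

/-- **W8c.** Explosion along axis `0`. -/
theorem reach_explode {n : ℕ} (Z : Conf n) (hZ : Z.Pos) (hd : Z.Disj) (R : ℚ)
    (hR : ∀ i j, |Z.c i j| + Z.h i j ≤ R) :
    ∃ d : Fin n → ℚ, (∀ i i', i ≠ i' → 4 * R ≤ |d i - d i'|) ∧
      Reach Z ⟨fun i => Function.update (Z.c i) 0 (Z.c i 0 + d i), Z.h⟩ := by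
  classical
  have key : ∀ m : ℕ, m ≤ n → ∃ (T : Finset (Fin n)) (d : Fin n → ℚ), T.card = m ∧
      (∀ i, i ∉ T → d i = 0) ∧ (∀ i ∈ T, ((n : ℚ) - m + 1) * (4 * R) ≤ d i) ∧
      (∀ i ∈ T, ∀ i' ∈ T, i ≠ i' → 4 * R ≤ |d i - d i'|) ∧ Reach Z (shifted Z d) := by
    intro m
    induction m with
    | zero =>
      intro _
      refine ⟨∅, fun _ => 0, rfl, fun _ _ => rfl, by simp, by simp, ?_⟩
      rw [shifted_zero]
      exact Reach.refl Z
    | succ m ih =>
      intro hm
      obtain ⟨T, d, hcard, hd0, hdT, hpair, hreach⟩ := ih (Nat.le_of_succ_le hm)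
      have hmn : (m : ℚ) + 1 ≤ n := by exact_mod_cast hm
      have hne : (Finset.univ \ T).Nonempty := by
        rw [← Finset.card_pos, Finset.card_sdiff_of_subset (Finset.subset_univ T),
          Finset.card_univ, Fintype.card_fin, hcard]
        omega
      obtain ⟨istar, histar, hmax⟩ :=
        Finset.exists_max_image (Finset.univ \ T) (fun i => Z.c i 0 + Z.h i 0) hne
      have hiT : istar ∉ T := (Finset.mem_sdiff.1 histar).2
      have hRpos : 0 < R := by
        have h1 := hR istar 0
        have h2 := hZ istar 0
        have h3 := abs_nonneg (Z.c istar 0)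
        linarith
      set D : ℚ := ((n : ℚ) - m) * (4 * R) with hDdef
      have hD : 0 ≤ D := mul_nonneg (by linarith) (by linarith)
      have hDT : ∀ i ∈ T, D + 4 * R ≤ d i := fun i hi => by
        have := hdT i hi
        rw [hDdef]
        linarith
      have hvalid : TransValid (shifted Z d) istar 0 D :=
        explode_step Z hZ hd R hR T d D hD hd0 hDT istar hiT
          (fun i hi => hmax i (Finset.mem_sdiff.2 ⟨Finset.mem_univ i, hi⟩))
      have hstep : Reach (shifted Z d) (shifted Z (Function.update d istar D)) := by
        rw [← shifted_translate Z d istar D (hd0 istar hiT)]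
        exact Reach.translate (shifted Z d) istar 0 D hZ hvalid (Reach.refl _)
      refine ⟨insert istar T, Function.update d istar D, ?_, ?_, ?_, ?_, reach_trans' hreach hstep⟩
      · rw [Finset.card_insert_of_notMem hiT, hcard]
      · intro i hi
        rw [Finset.mem_insert, not_or] at hi
        rw [Function.update_of_ne hi.1]
        exact hd0 i hi.2
      · intro i hi
        rcases Finset.mem_insert.1 hi with h | h
        · subst h
          rw [Function.update_self, hDdef]
          push_cast
          linarith
        · have hne' : i ≠ istar := fun h' => hiT (h' ▸ h)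
          rw [Function.update_of_ne hne']
          have := hDT i h
          push_cast
          rw [hDdef] at this
          nlinarith
      · intro i hi i' hi' hii'
        rcases Finset.mem_insert.1 hi with h | h
        · subst h
          rcases Finset.mem_insert.1 hi' with h' | h'
          · exact (hii' h'.symm).elim
          · have hne' : i' ≠ i := fun h'' => hiT (h'' ▸ h')
            rw [Function.update_self, Function.update_of_ne hne']
            have := hDT i' h'
            rw [abs_sub_comm]
            exact le_trans (by linarith) (le_abs_self _)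
        · have hne' : i ≠ istar := fun h'' => hiT (h'' ▸ h)
          rcases Finset.mem_insert.1 hi' with h' | h'
          · subst h'
            rw [Function.update_self, Function.update_of_ne hne']
            have := hDT i h
            exact le_trans (by linarith) (le_abs_self _)
          · have hne'' : i' ≠ istar := fun h'' => hiT (h'' ▸ h')
            rw [Function.update_of_ne hne', Function.update_of_ne hne'']
            exact hpair i h i' h' hii'
  obtain ⟨T, d, hcard, -, -, hpair, hreach⟩ := key n le_rfl
  have hT : T = Finset.univ := by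
    rw [← Finset.card_eq_iff_eq_univ, hcard, Fintype.card_fin]
  subst hT
  exact ⟨d, fun i i' hii' => hpair i (Finset.mem_univ i) i' (Finset.mem_univ i') hii', hreach⟩

end Crest.Agent.Helper7
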