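import Mathlib
import Crest.Prelude.Def_BoxFlow
import Crest.Agent.BoxFlow.Defs
import Crest.Agent.Helper7.BoxFlowExplode

/-!
# S0170: parking and `reach_of_disjoint` (package W8d), relative to W8a/W8b

`reach_of_disjoint_of`: from the slab lemma `reach_centered` (W8b) and symmetry of `Reach` (W8a),
any two pairwise separated positive configurations with equal volumes are mutually reachable.
-/

set_option autoImplicit false

open Crest.AnalysisR.BoxFlow Crest.Agent.BoxFlow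

namespace Crest.Agent.Helper7

/-- The statement of the slab lemma (W8b), as a proposition. -/
def SlabLemma : Prop :=
  ∀ {n : ℕ} (s : Fin 3) (mid : Fin n → ℚ) (ρ : ℚ),
    (∀ i i', i ≠ i' → 2 * ρ < |mid i - mid i'|) →
    ∀ (Z Z' : Conf n), Z.Pos → Z'.Pos → (∀ i, |Z.c i s - mid i| + Z.h i s ≤ ρ) →
      (∀ i, Z'.c i s = mid i ∧ Z'.h i s ≤ ρ) → (∀ i, ∏ j : Fin 3, Z'.h i j / Z.h i j = 1) →
      Reach Z Z'

/-- Parking: every separated configuration inside `[-R, R]^3` reaches the canonical parked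
configuration with prescribed shapes `k`. -/
theorem reach_park (hcent : SlabLemma) {n : ℕ} (Z : Conf n) (hZ : Z.Pos) (hd : Z.Disj) (R : ℚ)
    (hR : ∀ i j, |Z.c i j| + Z.h i j ≤ R) (k : Fin n → Fin 3 → ℚ) (hk : ∀ i j, 0 < k i j)
    (hkR : ∀ i j, k i j ≤ R) (hvol : ∀ i, ∏ j : Fin 3, k i j / Z.h i j = 1) :
    Reach Z ⟨fun i => ![0, (((i : ℕ) : ℚ) + 1) * (4 * R), 0], k⟩ := by
  obtain ⟨d, hdsep, h1⟩ := reach_explode Z hZ hd R hR
  have hRpos : ∀ _ : Fin n, 0 < R := fun i => by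
    have h1 := hR i 0
    have h2 := hZ i 0
    have h3 := abs_nonneg (Z.c i 0)
    linarith
  have h2 : Reach (⟨fun i => Function.update (Z.c i) 0 (Z.c i 0 + d i), Z.h⟩ : Conf n)
      ⟨fun i => ![d i, (((i : ℕ) : ℚ) + 1) * (4 * R), 0], k⟩ := by
    refine hcent 0 d R (fun i i' hii' => ?_) _ _ hZ hk (fun i => ?_) (fun i => ⟨rfl, hkR i 0⟩) hvol
    · have := hdsep i i' hii'
      have := hRpos i
      linarith
    · show |Function.update (Z.c i) 0 (Z.c i 0 + d i) 0 - d i| + Z.h i 0 ≤ R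
      rw [Function.update_self, add_sub_cancel_right]
      exact hR i 0
  have h3 : Reach (⟨fun i => ![d i, (((i : ℕ) : ℚ) + 1) * (4 * R), 0], k⟩ : Conf n)
      ⟨fun i => ![0, (((i : ℕ) : ℚ) + 1) * (4 * R), 0], k⟩ := by
    refine hcent 1 (fun i => (((i : ℕ) : ℚ) + 1) * (4 * R)) R (fun i i' hii' => ?_) _ _ hk hk
      (fun i => ?_) (fun i => ⟨rfl, hkR i 1⟩)
      (fun i => Finset.prod_eq_one fun j _ => div_self (hk i j).ne')
    · have hR0 := hRpos i
      have hne : (i : ℕ) ≠ (i' : ℕ) := fun h => hii' (Fin.ext h)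
      rcases Nat.lt_or_gt_of_ne hne with h | h
      · have h' : ((i : ℕ) : ℚ) + 1 ≤ ((i' : ℕ) : ℚ) := by exact_mod_cast h
        refine lt_abs.2 (Or.inr ?_)
        nlinarith
      · have h' : ((i' : ℕ) : ℚ) + 1 ≤ ((i : ℕ) : ℚ) := by exact_mod_cast h
        refine lt_abs.2 (Or.inl ?_)
        nlinarith
    · show |(((i : ℕ) : ℚ) + 1) * (4 * R) - (((i : ℕ) : ℚ) + 1) * (4 * R)| + k i 1 ≤ R
      rw [sub_self, abs_zero, zero_add]
      exact hkR i 1
  exact reach_trans' h1 (reach_trans' h2 h3)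

/-- **W8d**, relative to the slab lemma (W8b) and the symmetry of `Reach` (W8a). -/
theorem reach_of_disjoint_of (hcent : SlabLemma)
    (hsymm : ∀ {n : ℕ} {X Y : Conf n}, Reach X Y → Reach Y X)
    {n : ℕ} (X Y : Conf n) (hX : X.Pos) (hXd : X.Disj) (hY : Y.Pos) (hYd : Y.Disj)
    (hvol : ∀ i, ∏ j : Fin 3, Y.h i j / X.h i j = 1) : Reach X Y := by
  set R : ℚ := ∑ i, ∑ j, (|X.c i j| + X.h i j + (|Y.c i j| + Y.h i j)) with hRdef
  have hnn : ∀ i j, 0 ≤ |X.c i j| + X.h i j + (|Y.c i j| + Y.h i j) := fun i j => by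
    have h1 := abs_nonneg (X.c i j)
    have h2 := abs_nonneg (Y.c i j)
    have h3 := hX i j
    have h4 := hY i j
    linarith
  have hterm : ∀ i j, |X.c i j| + X.h i j + (|Y.c i j| + Y.h i j) ≤ R := fun i j => by
    have h1 : ∑ j', (|X.c i j'| + X.h i j' + (|Y.c i j'| + Y.h i j')) ≤ R :=
      Finset.single_le_sum
        (f := fun i => ∑ j, (|X.c i j| + X.h i j + (|Y.c i j| + Y.h i j)))
        (fun i _ => Finset.sum_nonneg fun j _ => hnn i j) (Finset.mem_univ i)
    have h2 : |X.c i j| + X.h i j + (|Y.c i j| + Y.h i j) ≤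
        ∑ j', (|X.c i j'| + X.h i j' + (|Y.c i j'| + Y.h i j')) :=
      Finset.single_le_sum (f := fun j => |X.c i j| + X.h i j + (|Y.c i j| + Y.h i j))
        (fun j _ => hnn i j) (Finset.mem_univ j)
    exact h2.trans h1
  have hXR : ∀ i j, |X.c i j| + X.h i j ≤ R := fun i j => by
    have h1 := hterm i j
    have h2 := abs_nonneg (Y.c i j)
    have h4 := hY i j
    linarith
  have hYR : ∀ i j, |Y.c i j| + Y.h i j ≤ R := fun i j => by
    have h1 := hterm i j
    have h2 := abs_nonneg (X.c i j)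
    have h4 := hX i j
    linarith
  have hkR : ∀ i j, Y.h i j ≤ R := fun i j => by
    have h1 := hYR i j
    have h2 := abs_nonneg (Y.c i j)
    linarith
  have hXQ := reach_park hcent X hX hXd R hXR Y.h hY hkR hvol
  have hYQ := reach_park hcent Y hY hYd R hYR Y.h hY hkR
    (fun i => Finset.prod_eq_one fun j _ => div_self (hY i j).ne')
  exact reach_trans' hXQ (hsymm hYQ)

end Crest.Agent.Helper7
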