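import Mathlib
import Crest.Prelude.Def_BoxFlow
import Crest.Agent.BoxFlow.Defs
import Crest.Agent.Lead.BoxFlowSlab
import Crest.Agent.Helper1.BoxFlowGeomA
import Crest.Agent.Helper7.BoxFlowPark

/-!
# S0170: `reach_of_disjoint` (package W8d)

Assembled from the slab lemma `Crest.Agent.Lead.reach_centered` (W8b), the symmetry of `Reach`
`Crest.Agent.Helper1.reach_symm` (W8a) and `reach_explode` (W8c, via `reach_of_disjoint_of`).
-/

set_option autoImplicit false

open Crest.AnalysisR.BoxFlow Crest.Agent.BoxFlow

namespace Crest.Agent.Helper7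

theorem slabLemma : SlabLemma :=
  fun s mid ρ hsep Z Z' hZ hZ' h1 h2 hvol =>
    Crest.Agent.Lead.reach_centered s mid ρ hsep Z Z' hZ hZ' h1 h2 hvol

/-- **W8d.** Two positive, pairwise separated configurations whose corresponding boxes have
equal volumes are connected by finitely many valid elementary moves. -/
theorem reach_of_disjoint {n : ℕ} (X Y : Conf n) (hX : X.Pos) (hXd : X.Disj) (hY : Y.Pos)
    (hYd : Y.Disj) (hvol : ∀ i, ∏ j : Fin 3, Y.h i j / X.h i j = 1) : Reach X Y :=
  reach_of_disjoint_of slabLemma (fun h => Crest.Agent.Helper1.reach_symm h) X Y hX hXd hY hYd hvol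

end Crest.Agent.Helper7
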