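import Mathlib
import Crest.Agent.Helper1.TetraCoverAlg

/-!
# Row 211 (helper7): the area sum of the explicit sweep cover (package E, part C3)

A pure real inequality: the midpoint Riemann sum
`∑_{i<N} (R(c_i) + 2 lam / N)² / (2 N √(1 + lam² (A(c_i)² + c_i²/2)))`, `c_i = -1/2 + (2i+1)/(2N)`,
is at most `1/2 - lam²/960 + lam⁴/40 + 4 lam / N`.
-/

set_option autoImplicit false

namespace Crest.Agent.Helper7

open Crest.Agent.Helper1.TetraCover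

/-- `1/√(1+u) ≤ 1 - u/2 + 3u²/8` for `u ≥ 0`. -/
theorem inv_sqrt_le (u : ℝ) (hu : 0 ≤ u) :
    1 / Real.sqrt (1 + u) ≤ 1 - u / 2 + 3 * u ^ 2 / 8 := by
  have hq : 0 < 1 - u / 2 + 3 * u ^ 2 / 8 := by nlinarith [sq_nonneg (u - 2 / 3)]
  have hs : 0 < Real.sqrt (1 + u) := Real.sqrt_pos.mpr (by linarith)
  rw [one_div_le hs hq]
  apply Real.le_sqrt_of_sq_le
  rw [div_pow, one_pow, div_le_iff₀ (by positivity)]
  have hquad : 0 ≤ 5 / 8 - 15 / 64 * u + 9 / 64 * u ^ 2 := by nlinarith [sq_nonneg (u - 5 / 6)]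
  have e1 : (1 + u) * (1 - u / 2 + 3 * u ^ 2 / 8) ^ 2
      = 1 + u ^ 3 * (5 / 8 - 15 / 64 * u + 9 / 64 * u ^ 2) := by ring
  rw [e1]
  have := mul_nonneg (pow_nonneg hu 3) hquad
  linarith

/-- The polynomial core of the per-term bound. -/
theorem poly_core (L r u ε : ℝ) (hL0 : 0 ≤ L) (hL1 : L ≤ 1 / 100) (hr0 : 0 ≤ r)
    (hr1 : r ≤ 626 / 10000 * L) (hu0 : 0 ≤ u) (hu1 : u ≤ 3 / 16 * L) (hε0 : 0 ≤ ε)
    (hε1 : ε ≤ 1 / 5) :
    (1 + r + ε) ^ 2 / 2 * (1 - u / 2 + 3 * u ^ 2 / 8)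
      ≤ 1 / 2 + r - u / 4 + 6 / 5 * ε + 14 / 1000 * L ^ 2 := by
  have hs1 : 1 ≤ 1 + r + ε := by linarith
  have hs2 : 1 + r + ε ≤ 121 / 100 := by nlinarith
  have hss1 : 1 ≤ (1 + r + ε) ^ 2 := by nlinarith
  have hss2 : (1 + r + ε) ^ 2 ≤ 147 / 100 := by nlinarith
  have h1 : 0 ≤ u / 4 * ((1 + r + ε) ^ 2 - 1) := mul_nonneg (by linarith) (by linarith)
  have h3 : (r + ε) ^ 2 / 2 ≤ r ^ 2 + ε ^ 2 := by nlinarith [sq_nonneg (r - ε)]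
  have h4 : ε ^ 2 ≤ ε / 5 := by nlinarith
  have h5 : r ^ 2 ≤ 4 / 1000 * L ^ 2 := by
    have : r ^ 2 ≤ (626 / 10000 * L) ^ 2 := pow_le_pow_left₀ hr0 hr1 2
    nlinarith [sq_nonneg L]
  have h7 : u ^ 2 ≤ 9 / 256 * L ^ 2 := by
    have : u ^ 2 ≤ (3 / 16 * L) ^ 2 := pow_le_pow_left₀ hu0 hu1 2
    nlinarith
  have h8 : 3 * u ^ 2 / 16 * (1 + r + ε) ^ 2 ≤ 3 * (9 / 256 * L ^ 2) / 16 * (147 / 100) := by
    apply mul_le_mul (by linarith) hss2 (by positivity) (by positivity)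
  have e1 : (1 + r + ε) ^ 2 / 2 * (1 - u / 2 + 3 * u ^ 2 / 8)
      = 1 / 2 + r + ε + (r + ε) ^ 2 / 2 - u / 4 - u / 4 * ((1 + r + ε) ^ 2 - 1)
        + 3 * u ^ 2 / 16 * (1 + r + ε) ^ 2 := by ring
  rw [e1]
  nlinarith [sq_nonneg L]

/-- Per-term bound. -/
theorem term_bound (lam c ε : ℝ) (hl0 : 0 < lam) (hl1 : lam ≤ 1 / 10) (hc : c ^ 2 ≤ 1 / 4)
    (hε0 : 0 ≤ ε) (hε1 : ε ≤ 1 / 5) :
    (Rf lam c + ε) ^ 2 / (2 * Real.sqrt (1 + lam ^ 2 * (Af c ^ 2 + c ^ 2 / 2)))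
      ≤ 1 / 2 + lam ^ 2 * (7 * c ^ 4 / 16 - c ^ 2 / 32 - 1 / 256) + lam ^ 4 / 50 + 3 / 2 * ε := by
  have hL0 : 0 ≤ lam ^ 2 := sq_nonneg lam
  have hL1 : lam ^ 2 ≤ 1 / 100 := by nlinarith
  have hc0 : 0 ≤ c ^ 2 := sq_nonneg c
  have hc4 : c ^ 4 ≤ 1 / 16 := by nlinarith
  have hc40 : 0 ≤ c ^ 4 := by positivity
  set L : ℝ := lam ^ 2 with hLdef
  have hl4 : lam ^ 4 = L ^ 2 := by rw [hLdef]; ring
  set r : ℝ := rf lam c with hr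
  set u : ℝ := lam ^ 2 * (Af c ^ 2 + c ^ 2 / 2) with hu
  have hr0 : 0 ≤ r := rf_nonneg lam c
  have hrdef : r = L * (c ^ 2 / 8 + c ^ 4 / 2) + L ^ 2 * c ^ 4 / 25 := by
    rw [hr, ← hl4]; unfold rf; rfl
  have hr1 : r ≤ 626 / 10000 * L := by
    rw [hrdef]
    have h1 : L * (c ^ 2 / 8 + c ^ 4 / 2) ≤ L * (1 / 16) :=
      mul_le_mul_of_nonneg_left (by linarith) hL0
    have h2 : L ^ 2 * c ^ 4 / 25 ≤ L * (1 / 40000) := by
      have : L ^ 2 * c ^ 4 ≤ L * (1 / 100 * (1 / 16)) := by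
        rw [sq, mul_assoc]
        exact mul_le_mul_of_nonneg_left (mul_le_mul hL1 hc4 hc40 (by norm_num)) hL0
      linarith
    linarith
  have hudef : u = L * ((c ^ 2 / 2 + 1 / 8) ^ 2 + c ^ 2 / 2) := by
    rw [hu]; unfold Af; rfl
  have hu0 : 0 ≤ u := by rw [hudef]; positivity
  have hu1 : u ≤ 3 / 16 * L := by
    rw [hudef]
    have : (c ^ 2 / 2 + 1 / 8) ^ 2 + c ^ 2 / 2 ≤ 3 / 16 := by nlinarith
    nlinarith
  have hs : 0 < Real.sqrt (1 + u) := Real.sqrt_pos.mpr (by linarith)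
  have hcore := poly_core L r u ε hL0 hL1 hr0 hr1 hu0 hu1 hε0 hε1
  have hinv := inv_sqrt_le u hu0
  have e1 : (Rf lam c + ε) ^ 2 / (2 * Real.sqrt (1 + u))
      = (1 + r + ε) ^ 2 / 2 * (1 / Real.sqrt (1 + u)) := by
    unfold Rf
    rw [← hr]
    field_simp
  rw [e1]
  have h2 : (1 + r + ε) ^ 2 / 2 * (1 / Real.sqrt (1 + u))
      ≤ (1 + r + ε) ^ 2 / 2 * (1 - u / 2 + 3 * u ^ 2 / 8) :=
    mul_le_mul_of_nonneg_left hinv (by positivity)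
  have e2 : r - u / 4 = L * (7 * c ^ 4 / 16 - c ^ 2 / 32 - 1 / 256) + L ^ 2 * c ^ 4 / 25 := by
    rw [hrdef, hudef]; ring
  have h3 : L ^ 2 * c ^ 4 / 25 ≤ L ^ 2 / 400 := by
    have : L ^ 2 * c ^ 4 ≤ L ^ 2 * (1 / 16) := mul_le_mul_of_nonneg_left hc4 (sq_nonneg L)
    linarith
  rw [hl4]
  nlinarith [sq_nonneg L]

/-- **C3: the area sum of the explicit cover.** -/
theorem cover_sum_bound (lam : ℝ) (N : ℕ) (hl0 : 0 < lam) (hl1 : lam ≤ 1 / 10) (hN : 1 ≤ N) :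
    ∑ i ∈ Finset.range N, (Crest.Agent.Helper1.TetraCover.Rf lam (-1 / 2 + (2 * (i : ℝ) + 1) / (2 * N)) + 2 * lam / N) ^ 2 /
        (2 * N * Real.sqrt (1 + lam ^ 2 * (Crest.Agent.Helper1.TetraCover.Af (-1 / 2 + (2 * (i : ℝ) + 1) / (2 * N)) ^ 2 + (-1 / 2 + (2 * (i : ℝ) + 1) / (2 * N)) ^ 2 / 2)))
      ≤ 1 / 2 - lam ^ 2 / 960 + lam ^ 4 / 40 + 4 * lam / N := by
  have hN1 : (1:ℝ) ≤ N := by exact_mod_cast hN
  have hNpos : (0:ℝ) < N := by linarith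
  have hNne : (N:ℝ) ≠ 0 := hNpos.ne'
  have hε0 : 0 ≤ 2 * lam / N := by positivity
  have hε1 : 2 * lam / N ≤ 1 / 5 := by
    rw [div_le_iff₀ hNpos]
    nlinarith
  -- the telescoping majorant
  set G : ℕ → ℝ := fun i =>
    (i : ℝ) * (1 / N * (1 / 2 - lam ^ 2 / 256 + lam ^ 4 / 50 + 3 * lam / N))
      + 7 * lam ^ 2 / 16 * ((-1 / 2 + (i : ℝ) / N) ^ 5 / 5)
      - lam ^ 2 / 32 * ((-1 / 2 + (i : ℝ) / N) ^ 3 / 3 - (i : ℝ) / (12 * N ^ 3)) with hG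
  have key : ∀ i ∈ Finset.range N,
      (Rf lam (-1 / 2 + (2 * (i : ℝ) + 1) / (2 * N)) + 2 * lam / N) ^ 2 /
        (2 * N * Real.sqrt (1 + lam ^ 2 * (Af (-1 / 2 + (2 * (i : ℝ) + 1) / (2 * N)) ^ 2
          + (-1 / 2 + (2 * (i : ℝ) + 1) / (2 * N)) ^ 2 / 2)))
      ≤ G (i + 1) - G i := by
    intro i hi
    have hiN : (i : ℝ) + 1 ≤ N := by
      have := Finset.mem_range.mp hi
      exact_mod_cast this
    have hi0 : (0:ℝ) ≤ i := Nat.cast_nonneg i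
    set c : ℝ := -1 / 2 + (2 * (i : ℝ) + 1) / (2 * N) with hc
    have hc1 : -1 / 2 ≤ c := by
      rw [hc]
      have : 0 ≤ (2 * (i : ℝ) + 1) / (2 * N) := by positivity
      linarith
    have hc2 : c ≤ 1 / 2 := by
      rw [hc]
      have : (2 * (i : ℝ) + 1) / (2 * N) ≤ 1 := by
        rw [div_le_one (by positivity)]
        linarith
      linarith
    have hcsq : c ^ 2 ≤ 1 / 4 := by nlinarith
    have hterm := term_bound lam c (2 * lam / N) hl0 hl1 hcsq hε0 hε1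
    have hs : 0 < Real.sqrt (1 + lam ^ 2 * (Af c ^ 2 + c ^ 2 / 2)) :=
      Real.sqrt_pos.mpr (by positivity)
    have e1 : (Rf lam c + 2 * lam / N) ^ 2 /
        (2 * N * Real.sqrt (1 + lam ^ 2 * (Af c ^ 2 + c ^ 2 / 2)))
        = 1 / N * ((Rf lam c + 2 * lam / N) ^ 2 /
          (2 * Real.sqrt (1 + lam ^ 2 * (Af c ^ 2 + c ^ 2 / 2)))) := by
      field_simp
    rw [e1]
    have h1 : 1 / (N:ℝ) * ((Rf lam c + 2 * lam / N) ^ 2 /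
          (2 * Real.sqrt (1 + lam ^ 2 * (Af c ^ 2 + c ^ 2 / 2))))
        ≤ 1 / N * (1 / 2 + lam ^ 2 * (7 * c ^ 4 / 16 - c ^ 2 / 32 - 1 / 256) + lam ^ 4 / 50
          + 3 / 2 * (2 * lam / N)) :=
      mul_le_mul_of_nonneg_left hterm (by positivity)
    refine le_trans h1 ?_
    have e2 : G (i + 1) - G i - 1 / N * (1 / 2 + lam ^ 2 * (7 * c ^ 4 / 16 - c ^ 2 / 32 - 1 / 256)
          + lam ^ 4 / 50 + 3 / 2 * (2 * lam / N))
        = 7 * lam ^ 2 / 16 * (4 * c ^ 2 * (1 / (2 * N)) ^ 3 + 2 / 5 * (1 / (2 * N)) ^ 5) := by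
      rw [hG, hc]
      push_cast
      field_simp
      ring
    have h2 : 0 ≤ 7 * lam ^ 2 / 16 * (4 * c ^ 2 * (1 / (2 * (N:ℝ))) ^ 3
        + 2 / 5 * (1 / (2 * (N:ℝ))) ^ 5) := by positivity
    linarith
  calc ∑ i ∈ Finset.range N, (Rf lam (-1 / 2 + (2 * (i : ℝ) + 1) / (2 * N)) + 2 * lam / N) ^ 2 /
        (2 * N * Real.sqrt (1 + lam ^ 2 * (Af (-1 / 2 + (2 * (i : ℝ) + 1) / (2 * N)) ^ 2
          + (-1 / 2 + (2 * (i : ℝ) + 1) / (2 * N)) ^ 2 / 2)))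
      ≤ ∑ i ∈ Finset.range N, (G (i + 1) - G i) := Finset.sum_le_sum key
    _ = G N - G 0 := Finset.sum_range_sub G N
    _ ≤ 1 / 2 - lam ^ 2 / 960 + lam ^ 4 / 40 + 4 * lam / N := by
      have e3 : G N - G 0 = 1 / 2 - lam ^ 2 / 960 + lam ^ 4 / 50 + 3 * lam / N
          + lam ^ 2 / (384 * N ^ 2) := by
        rw [hG]
        simp only [Nat.cast_zero]
        field_simp
        ring
      rw [e3]
      have h1 : lam ^ 2 / (384 * (N:ℝ) ^ 2) ≤ lam / N := by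
        rw [div_le_div_iff₀ (by positivity) hNpos]
        have : lam ^ 2 ≤ lam := by nlinarith
        have h384 : (N:ℝ) ≤ 384 * (N:ℝ) ^ 2 := by nlinarith
        calc lam ^ 2 * N ≤ lam * N := mul_le_mul_of_nonneg_right this hNpos.le
          _ ≤ lam * (384 * (N:ℝ) ^ 2) := mul_le_mul_of_nonneg_left h384 hl0.le
      have h2 : lam ^ 4 / 50 ≤ lam ^ 4 / 40 := by
        have : 0 ≤ lam ^ 4 := by positivity
        linarith
      have e4 : 4 * lam / (N:ℝ) = 3 * lam / N + lam / N := by ring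
      rw [e4]
      linarith

end Crest.Agent.Helper7
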