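import Mathlib
import Crest.Prelude.Def_BoxFlow
import Crest.Agent.Helper7.Flow

/-!
# Kinematics: from a schedule of moves to the time-one flow map

`U (t, x) = ∑ m < M, τ m t • V m x`, where `τ m = (θ m)'` and `θ m` climbs from `0` to `1`
inside the time slot `[t0 m, t1 m]`, the slots being consecutive.  If a point chain
`p 0, p 1, …, p M` satisfies, for every move `m`, that the field `V m` equals the displacement
`p (m+1) - p m` along the straight segment from `p m` to `p (m+1)`, then the flow of `U` carries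
`p 0` to `p M` at time one.
-/

set_option autoImplicit false

open Set Finset
open scoped ContDiff
open Crest.AnalysisR.BoxFlow

namespace Crest.Agent.Helper7.Kin

/-- The derivative of a `[0,1]`-valued function vanishes wherever the function is `0`. -/
lemma deriv_eq_zero_of_eq_zero {θ : ℝ → ℝ} {τ : ℝ} {t : ℝ} (hθ : HasDerivAt θ τ t)
    (h0 : ∀ s, 0 ≤ θ s) (ht : θ t = 0) : τ = 0 := by
  have hmin : IsLocalMin θ t := Filter.Eventually.of_forall fun s => by rw [ht]; exact h0 s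
  exact hmin.hasDerivAt_eq_zero hθ

/-- The derivative of a `[0,1]`-valued function vanishes wherever the function is `1`. -/
lemma deriv_eq_zero_of_eq_one {θ : ℝ → ℝ} {τ : ℝ} {t : ℝ} (hθ : HasDerivAt θ τ t)
    (h1 : ∀ s, θ s ≤ 1) (ht : θ t = 1) : τ = 0 := by
  have hmax : IsLocalMax θ t := Filter.Eventually.of_forall fun s => by rw [ht]; exact h1 s
  exact hmax.hasDerivAt_eq_zero hθ

/-- **Kinematics, `ℕ`-indexed version.** -/
theorem flow_one_eq_nat (M : ℕ) (θ τ : ℕ → ℝ → ℝ) (V : ℕ → (Fin 3 → ℝ) → (Fin 3 → ℝ))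
    (t0 t1 : ℕ → ℝ)
    (hθ : ∀ m, m < M → ∀ t, HasDerivAt (θ m) (τ m t) t)
    (h01 : ∀ m, m < M → ∀ t, 0 ≤ θ m t ∧ θ m t ≤ 1)
    (hθ0 : ∀ m, m < M → ∀ t, t ≤ t0 m → θ m t = 0)
    (hθ1 : ∀ m, m < M → ∀ t, t1 m ≤ t → θ m t = 1)
    (hslot : ∀ m m', m < m' → m' < M → t1 m ≤ t0 m')
    (h0 : ∀ m, m < M → 0 ≤ t0 m) (h1 : ∀ m, m < M → t1 m ≤ 1)
    (U : Field) (hUdef : ∀ t x, U (t, x) = ∑ m ∈ range M, τ m t • V m x)
    (hU : ContDiff ℝ ∞ U) (hc : HasCompactSupport U)
    (Φ : ℝ → (Fin 3 → ℝ) → (Fin 3 → ℝ)) (hΦ : IsFlow U Φ)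
    (p : ℕ → (Fin 3 → ℝ))
    (hstep : ∀ m, m < M → ∀ s ∈ Icc (0:ℝ) 1,
      V m (p m + s • (p (m + 1) - p m)) = p (m + 1) - p m) :
    Φ 1 (p 0) = p M := by
  set d : ℕ → (Fin 3 → ℝ) := fun m => p (m + 1) - p m with hd
  set y : ℝ → (Fin 3 → ℝ) := fun t => p 0 + ∑ m ∈ range M, θ m t • d m with hy
  have hy0 : y 0 = p 0 := by
    simp only [hy]
    rw [Finset.sum_eq_zero, add_zero]
    intro m hm
    rw [hθ0 m (mem_range.1 hm) 0 (h0 m (mem_range.1 hm)), zero_smul]
  have hy1 : y 1 = p M := by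
    simp only [hy]
    have : ∑ m ∈ range M, θ m 1 • d m = ∑ m ∈ range M, (p (m + 1) - p m) := by
      refine Finset.sum_congr rfl fun m hm => ?_
      rw [hθ1 m (mem_range.1 hm) 1 (h1 m (mem_range.1 hm)), one_smul]
    rw [this, Finset.sum_range_sub]
    abel
  have hyd : ∀ t, HasDerivAt y (∑ m ∈ range M, τ m t • d m) t := by
    intro t
    have h1 : HasDerivAt (fun t => ∑ m ∈ range M, θ m t • d m) (∑ m ∈ range M, τ m t • d m) t :=
      HasDerivAt.fun_sum fun m hm => (hθ m (mem_range.1 hm) t).smul_const (d m)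
    exact h1.const_add (p 0)
  have hsol : ∀ t, HasDerivAt y (U (t, y t)) t := by
    intro t
    have heq : ∑ m ∈ range M, τ m t • d m = U (t, y t) := by
      rw [hUdef]
      refine Finset.sum_congr rfl fun m hm => ?_
      have hmM := mem_range.1 hm
      by_cases hτ : τ m t = 0
      · rw [hτ, zero_smul, zero_smul]
      · -- `t` is strictly inside slot `m`
        have hlt0 : t0 m < t := by
          by_contra hcon
          exact hτ (deriv_eq_zero_of_eq_zero (hθ m hmM t) (fun s => (h01 m hmM s).1)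
            (hθ0 m hmM t (not_lt.1 hcon)))
        have hlt1 : t < t1 m := by
          by_contra hcon
          exact hτ (deriv_eq_zero_of_eq_one (hθ m hmM t) (fun s => (h01 m hmM s).2)
            (hθ1 m hmM t (not_lt.1 hcon)))
        have hyt : y t = p m + θ m t • d m := by
          simp only [hy]
          rw [← Finset.sum_range_add_sum_Ico _ hmM.le, Finset.sum_eq_sum_Ico_succ_bot hmM]
          have hA : ∑ k ∈ range m, θ k t • d k = ∑ k ∈ range m, (p (k + 1) - p k) := by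
            refine Finset.sum_congr rfl fun k hk => ?_
            have hkm := mem_range.1 hk
            rw [hθ1 k (hkm.trans hmM) t ((hslot k m hkm hmM).trans hlt0.le), one_smul]
          have hB : ∑ k ∈ Finset.Ico (m + 1) M, θ k t • d k = 0 := by
            refine Finset.sum_eq_zero fun k hk => ?_
            have hk' := Finset.mem_Ico.1 hk
            rw [hθ0 k hk'.2 t (hlt1.le.trans (hslot m k hk'.1 hk'.2)), zero_smul]
          rw [hA, hB, Finset.sum_range_sub]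
          abel
        rw [hyt, hstep m hmM (θ m t) ⟨(h01 m hmM t).1, (h01 m hmM t).2⟩]
    rw [← heq]
    exact hyd t
  have := Flow.flow_eq_of_solution U hU hc hΦ hsol 1
  rw [hy0, hy1] at this
  exact this

/-- **Kinematics, `Fin M`-indexed version.** -/
theorem flow_one_eq (M : ℕ) (θ τ : Fin M → ℝ → ℝ) (V : Fin M → (Fin 3 → ℝ) → (Fin 3 → ℝ))
    (t0 t1 : Fin M → ℝ)
    (hθ : ∀ m t, HasDerivAt (θ m) (τ m t) t) (h01 : ∀ m t, 0 ≤ θ m t ∧ θ m t ≤ 1)
    (hθ0 : ∀ m t, t ≤ t0 m → θ m t = 0) (hθ1 : ∀ m t, t1 m ≤ t → θ m t = 1)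
    (hslot : ∀ m m', m < m' → t1 m ≤ t0 m') (h0 : ∀ m, 0 ≤ t0 m) (h1 : ∀ m, t1 m ≤ 1)
    (U : Field) (hUdef : ∀ t x, U (t, x) = ∑ m, τ m t • V m x)
    (hU : ContDiff ℝ ∞ U) (hc : HasCompactSupport U)
    (Φ : ℝ → (Fin 3 → ℝ) → (Fin 3 → ℝ)) (hΦ : IsFlow U Φ)
    (p : Fin (M + 1) → (Fin 3 → ℝ))
    (hstep : ∀ m : Fin M, ∀ s ∈ Icc (0:ℝ) 1,
      V m (p m.castSucc + s • (p m.succ - p m.castSucc)) = p m.succ - p m.castSucc) :
    Φ 1 (p 0) = p (Fin.last M) := by
  classical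
  -- extend everything to `ℕ`
  set θ' : ℕ → ℝ → ℝ := fun m => if h : m < M then θ ⟨m, h⟩ else fun _ => 0 with hθ'
  set τ' : ℕ → ℝ → ℝ := fun m => if h : m < M then τ ⟨m, h⟩ else fun _ => 0 with hτ'
  set V' : ℕ → (Fin 3 → ℝ) → (Fin 3 → ℝ) := fun m => if h : m < M then V ⟨m, h⟩ else fun _ => 0
    with hV'
  set t0' : ℕ → ℝ := fun m => if h : m < M then t0 ⟨m, h⟩ else 0 with ht0'
  set t1' : ℕ → ℝ := fun m => if h : m < M then t1 ⟨m, h⟩ else 0 with ht1'
  set p' : ℕ → (Fin 3 → ℝ) := fun m => if h : m < M + 1 then p ⟨m, h⟩ else 0 with hp'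
  have key := flow_one_eq_nat M θ' τ' V' t0' t1'
    (fun m hm t => by simp only [hθ', hτ', dif_pos hm]; exact hθ ⟨m, hm⟩ t)
    (fun m hm t => by simp only [hθ', dif_pos hm]; exact h01 ⟨m, hm⟩ t)
    (fun m hm t ht => by
      simp only [hθ', ht0', dif_pos hm] at ht ⊢; exact hθ0 ⟨m, hm⟩ t ht)
    (fun m hm t ht => by
      simp only [hθ', ht1', dif_pos hm] at ht ⊢; exact hθ1 ⟨m, hm⟩ t ht)
    (fun m m' hmm' hm' => by
      have hm : m < M := hmm'.trans hm'
      simp only [ht0', ht1', dif_pos hm, dif_pos hm']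
      exact hslot ⟨m, hm⟩ ⟨m', hm'⟩ (by simpa using hmm'))
    (fun m hm => by simp only [ht0', dif_pos hm]; exact h0 ⟨m, hm⟩)
    (fun m hm => by simp only [ht1', dif_pos hm]; exact h1 ⟨m, hm⟩)
    U
    (fun t x => by
      rw [hUdef, ← Fin.sum_univ_eq_sum_range (fun m => τ' m t • V' m x) M]
      refine Finset.sum_congr rfl fun m _ => ?_
      simp only [hτ', hV', dif_pos m.2])
    hU hc Φ hΦ p'
    (fun m hm s hs => by
      have hm1 : m < M + 1 := hm.trans (Nat.lt_succ_self M)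
      have hm2 : m + 1 < M + 1 := Nat.succ_lt_succ hm
      simp only [hV', hp', dif_pos hm, dif_pos hm1, dif_pos hm2]
      exact hstep ⟨m, hm⟩ s hs)
  have e0 : p' 0 = p 0 := by simp only [hp', dif_pos (Nat.succ_pos M)]; rfl
  have eM : p' M = p (Fin.last M) := by simp only [hp', dif_pos (Nat.lt_succ_self M)]; rfl
  rw [e0, eM] at key
  exact key

end Crest.Agent.Helper7.Kin
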