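import Mathlib
import Crest.Agent.Helper9.Area

/-!
# Row 211, package D1: the one-piece lemma of the radial sweep

One sector `t ∈ [t₀,t₁]` of the radial sweep
`{p₀ + ρ(a + τ b) + s(e + w τ) : t₀ ≤ τ ≤ t₁, 0 ≤ ρ ≤ R τ, |s| ≤ L}` (`w' = lam(t)(a + t b)`)
is contained in ONE cylinder with axis `e + w c` (`c ∈ [t₀,t₁]` a tag) over an explicit
nondegenerate triangle of `(e + w c)^⊥`, of explicit area (`one_piece`); the projection of the
piece along the axis is squeezed between two triangles (`area_proj_piece_le`,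
`area_proj_piece_ge`).

Main tools: an orthonormal frame of `e^⊥` (`exists_perp_frame`), the area factor of the
projection along `e + w` between the planes `e^⊥` and `(e+w)^⊥` (`gram_proj_perp`), Gram-dual
coordinates (`eq_dual_comb`) and the mean value inequality (`sweep_coords`).
-/

set_option autoImplicit false
open MeasureTheory

namespace Crest.Agent.Helper7.Sweep

open Crest.Agent.Helper9.Area

/-- Orthogonal projection onto `u^⊥` (shape of S0328). -/
noncomputable def proj (u y : E3) : E3 := y - (inner ℝ y u / ‖u‖ ^ 2) • u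

theorem proj_add (u x y : E3) : proj u (x + y) = proj u x + proj u y := by
  simp only [proj, inner_add_left, add_div, add_smul]
  abel

theorem proj_sub (u x y : E3) : proj u (x - y) = proj u x - proj u y := by
  simp only [proj, inner_sub_left, sub_div, sub_smul]
  abel

theorem proj_smul (u : E3) (k : ℝ) (x : E3) : proj u (k • x) = k • proj u x := by
  simp only [proj, inner_smul_left, smul_sub, smul_smul]
  congr 2
  simp [mul_div_assoc]

theorem proj_self (u : E3) : proj u u = 0 := by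
  by_cases hu : u = 0
  · simp [proj, hu]
  · have : ‖u‖ ^ 2 ≠ 0 := by positivity
    simp [proj, this]

theorem inner_proj_self (u y : E3) : inner ℝ (proj u y) u = 0 := by
  by_cases hu : u = 0
  · simp [hu]
  · have : ‖u‖ ^ 2 ≠ 0 := by positivity
    simp only [proj, inner_sub_left, inner_smul_left, real_inner_self_eq_norm_sq]
    simp [this]

theorem inner_proj_proj (u x y : E3) (hu : u ≠ 0) :
    inner ℝ (proj u x) (proj u y) = inner ℝ x y - inner ℝ x u * inner ℝ y u / ‖u‖ ^ 2 := by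
  have h : ‖u‖ ^ 2 ≠ 0 := by positivity
  simp only [proj, inner_sub_left, inner_sub_right, inner_smul_left, inner_smul_right,
    real_inner_self_eq_norm_sq, real_inner_comm u y]
  simp only [RCLike.conj_to_real]
  field_simp
  ring

theorem gram_lin_comb (a b : E3) (α β γ δ : ℝ) :
    gram (α • a + β • b) (γ • a + δ • b) = (α * δ - β * γ) ^ 2 * gram a b := by
  unfold gram
  simp only [← real_inner_self_eq_norm_sq, inner_add_left, inner_add_right, inner_smul_left,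
    inner_smul_right, real_inner_comm a b, RCLike.conj_to_real]
  ring

theorem gram_pos_of_linearIndependent (a b : E3) (h : LinearIndependent ℝ ![a, b]) :
    0 < gram a b := by
  rcases (gram_nonneg a b).lt_or_eq with h0 | h0
  · exact h0
  · exfalso
    rw [LinearIndependent.pair_iff] at h
    have key : (-(inner ℝ a b)) • a + (‖a‖ ^ 2) • b = 0 := by
      rw [← norm_eq_zero, ← sq_eq_zero_iff, ← real_inner_self_eq_norm_sq]
      simp only [inner_add_left, inner_add_right, inner_smul_left,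
        inner_smul_right, real_inner_comm a b, RCLike.conj_to_real, real_inner_self_eq_norm_sq]
      unfold gram at h0
      linear_combination (‖a‖ ^ 2) * h0.symm
    have h1 := (h _ _ key).2
    have ha : a = 0 := by
      rw [← norm_eq_zero]
      exact pow_eq_zero_iff (two_ne_zero) |>.mp h1
    have h2 := (h 1 0 (by simp [ha])).1
    exact one_ne_zero h2

theorem affineIndependent_of_gram_pos (p q r : E3) (h : 0 < gram (q - p) (r - p)) :
    AffineIndependent ℝ ![p, q, r] := by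
  rw [affineIndependent_iff_not_collinear_set]
  intro hcol
  rw [collinear_iff_of_mem (p₀ := p) (by simp)] at hcol
  obtain ⟨v, hv⟩ := hcol
  obtain ⟨r₁, h₁⟩ := hv q (by simp)
  obtain ⟨r₂, h₂⟩ := hv r (by simp)
  have e1 : q - p = r₁ • v := by rw [h₁]; simp
  have e2 : r - p = r₂ • v := by rw [h₂]; simp
  rw [e1, e2, gram_smul_left, gram_smul_right, gram_self] at h
  simp at h

/-- An orthonormal frame of `e^⊥` with coordinates. -/
theorem exists_perp_frame (e : E3) (he : ‖e‖ = 1) :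
    ∃ f₁ f₂ : E3, ‖f₁‖ = 1 ∧ ‖f₂‖ = 1 ∧ inner ℝ f₁ f₂ = 0 ∧ inner ℝ f₁ e = 0 ∧
      inner ℝ f₂ e = 0 ∧
      ∀ v : E3, inner ℝ v e = 0 → v = inner ℝ v f₁ • f₁ + inner ℝ v f₂ • f₂ := by
  have hfin : Module.finrank ℝ E3 = Fintype.card (Fin 3) := by simp
  have hv : Orthonormal ℝ (({2} : Set (Fin 3)).domRestrict (fun _ : Fin 3 => e)) := by
    constructor
    · intro i
      simpa using he
    · intro i j hij
      exfalso
      apply hij
      have hi := i.2
      have hj := j.2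
      simp only [Set.mem_singleton_iff] at hi hj
      exact Subtype.ext (hi.trans hj.symm)
  obtain ⟨B, hB⟩ := hv.exists_orthonormalBasis_extension_of_card_eq hfin
  have hB2 : B 2 = e := hB 2 (by simp)
  refine ⟨B 0, B 1, B.orthonormal.1 0, B.orthonormal.1 1, B.orthonormal.2 (by decide), ?_, ?_, ?_⟩
  · rw [← hB2]
    exact B.orthonormal.2 (by decide)
  · rw [← hB2]
    exact B.orthonormal.2 (by decide)
  · intro v hve
    have := B.sum_repr' v
    rw [Fin.sum_univ_three, hB2, real_inner_comm v e, hve, zero_smul, add_zero,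
      real_inner_comm v (B 0), real_inner_comm v (B 1)] at this
    exact this.symm


/-- `gram` of two vectors of `e^⊥` after projecting along `e + w` (`w ∈ e^⊥`): the area factor
is `1/‖e + w‖`. -/
theorem gram_proj_perp (e x y w : E3) (he : ‖e‖ = 1) (hx : inner ℝ x e = 0)
    (hy : inner ℝ y e = 0) (hw : inner ℝ w e = 0) :
    gram (proj (e + w) x) (proj (e + w) y) = gram x y / (1 + ‖w‖ ^ 2) := by
  obtain ⟨f₁, f₂, h1, h2, h12, h1e, h2e, hexp⟩ := exists_perp_frame e he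
  have coord : ∀ v z : E3, inner ℝ v e = 0 →
      inner ℝ v z = inner ℝ v f₁ * inner ℝ z f₁ + inner ℝ v f₂ * inner ℝ z f₂ := by
    intro v z hv
    conv_lhs => rw [hexp v hv]
    rw [inner_add_left, inner_smul_left, inner_smul_left, real_inner_comm z f₁,
      real_inner_comm z f₂]
    simp
  have hU : ‖e + w‖ ^ 2 = 1 + ‖w‖ ^ 2 := by
    rw [norm_add_sq_real, he, real_inner_comm, hw]
    ring
  have hu : e + w ≠ 0 := by
    intro h0
    rw [h0] at hU
    have := sq_nonneg ‖w‖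
    simp at hU
    linarith
  have hxu : inner ℝ x (e + w) = inner ℝ x w := by rw [inner_add_right, hx, zero_add]
  have hyu : inner ℝ y (e + w) = inner ℝ y w := by rw [inner_add_right, hy, zero_add]
  unfold gram
  rw [← real_inner_self_eq_norm_sq, ← real_inner_self_eq_norm_sq, inner_proj_proj _ _ _ hu,
    inner_proj_proj _ _ _ hu, inner_proj_proj _ _ _ hu, hU, hxu, hyu,
    ← real_inner_self_eq_norm_sq x, ← real_inner_self_eq_norm_sq y,
    ← real_inner_self_eq_norm_sq w,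
    coord x x hx, coord y y hy, coord x y hx, coord x w hx, coord y w hy, coord w w hw]
  have hpos : (0:ℝ) < 1 + (inner ℝ w f₁ * inner ℝ w f₁ + inner ℝ w f₂ * inner ℝ w f₂) := by
    nlinarith [mul_self_nonneg (inner ℝ w f₁), mul_self_nonneg (inner ℝ w f₂)]
  field_simp
  ring

/-- Gram-dual functional of `a` in the pair `a, b`. -/
noncomputable def dualA (a b : E3) : E3 := (gram a b)⁻¹ • (‖b‖ ^ 2 • a - inner ℝ a b • b)

/-- Gram-dual functional of `b` in the pair `a, b`. -/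
noncomputable def dualB (a b : E3) : E3 := (gram a b)⁻¹ • (‖a‖ ^ 2 • b - inner ℝ a b • a)

theorem inner_a_dualA (a b : E3) (hG : 0 < gram a b) : inner ℝ a (dualA a b) = 1 := by
  unfold dualA
  rw [inner_smul_right, inner_sub_right, inner_smul_right, inner_smul_right,
    real_inner_self_eq_norm_sq]
  have : ‖b‖ ^ 2 * ‖a‖ ^ 2 - inner ℝ a b * inner ℝ a b = gram a b := by unfold gram; ring
  rw [this]
  exact inv_mul_cancel₀ hG.ne'

theorem inner_b_dualA (a b : E3) : inner ℝ b (dualA a b) = 0 := by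
  unfold dualA
  rw [inner_smul_right, inner_sub_right, inner_smul_right, inner_smul_right,
    real_inner_self_eq_norm_sq, real_inner_comm a b]
  have : ‖b‖ ^ 2 * inner ℝ a b - inner ℝ a b * ‖b‖ ^ 2 = 0 := by ring
  rw [this, mul_zero]

theorem inner_a_dualB (a b : E3) : inner ℝ a (dualB a b) = 0 := by
  unfold dualB
  rw [inner_smul_right, inner_sub_right, inner_smul_right, inner_smul_right,
    real_inner_self_eq_norm_sq]
  have : ‖a‖ ^ 2 * inner ℝ a b - inner ℝ a b * ‖a‖ ^ 2 = 0 := by ring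
  rw [this, mul_zero]

theorem inner_b_dualB (a b : E3) (hG : 0 < gram a b) : inner ℝ b (dualB a b) = 1 := by
  unfold dualB
  rw [inner_smul_right, inner_sub_right, inner_smul_right, inner_smul_right,
    real_inner_self_eq_norm_sq, real_inner_comm a b]
  have : ‖a‖ ^ 2 * ‖b‖ ^ 2 - inner ℝ a b * inner ℝ a b = gram a b := by unfold gram; ring
  rw [this]
  exact inv_mul_cancel₀ hG.ne'

/-- Every vector of `e^⊥` is a combination of `a, b` (independent, in `e^⊥`), with the Gram-dual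
coefficients. -/
theorem eq_dual_comb (e a b v : E3) (he : ‖e‖ = 1) (ha : inner ℝ a e = 0) (hb : inner ℝ b e = 0)
    (hv : inner ℝ v e = 0) (hG : 0 < gram a b) :
    v = inner ℝ v (dualA a b) • a + inner ℝ v (dualB a b) • b := by
  obtain ⟨f₁, f₂, h1, h2, h12, h1e, h2e, hexp⟩ := exists_perp_frame e he
  have coord : ∀ v z : E3, inner ℝ v e = 0 →
      inner ℝ v z = inner ℝ v f₁ * inner ℝ z f₁ + inner ℝ v f₂ * inner ℝ z f₂ := by
    intro v z hv
    conv_lhs => rw [hexp v hv]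
    rw [inner_add_left, inner_smul_left, inner_smul_left, real_inner_comm z f₁,
      real_inner_comm z f₂]
    simp
  set z : E3 := v - (inner ℝ v (dualA a b) • a + inner ℝ v (dualB a b) • b) with hz
  have hze : inner ℝ z e = 0 := by
    rw [hz, inner_sub_left, inner_add_left, inner_smul_left, inner_smul_left, ha, hb, hv]
    simp
  have hGc : gram a b = (inner ℝ a f₁ * inner ℝ b f₂ - inner ℝ a f₂ * inner ℝ b f₁) ^ 2 := by
    unfold gram
    rw [← real_inner_self_eq_norm_sq, ← real_inner_self_eq_norm_sq, coord a a ha, coord b b hb,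
      coord a b ha]
    ring
  have hD : inner ℝ a f₁ * inner ℝ b f₂ - inner ℝ a f₂ * inner ℝ b f₁ ≠ 0 := by
    intro h0
    rw [hGc, h0] at hG
    simp at hG
  have hvA : inner ℝ v (dualA a b) = (inner ℝ v f₁ * inner ℝ b f₂ - inner ℝ v f₂ * inner ℝ b f₁)
      / (inner ℝ a f₁ * inner ℝ b f₂ - inner ℝ a f₂ * inner ℝ b f₁) := by
    unfold dualA
    rw [inner_smul_right, inner_sub_right, inner_smul_right, inner_smul_right, hGc,
      ← real_inner_self_eq_norm_sq, coord b b hb, coord a b ha, coord v a hv, coord v b hv]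
    field_simp
    ring
  have hvB : inner ℝ v (dualB a b) = (inner ℝ a f₁ * inner ℝ v f₂ - inner ℝ a f₂ * inner ℝ v f₁)
      / (inner ℝ a f₁ * inner ℝ b f₂ - inner ℝ a f₂ * inner ℝ b f₁) := by
    unfold dualB
    rw [inner_smul_right, inner_sub_right, inner_smul_right, inner_smul_right, hGc,
      ← real_inner_self_eq_norm_sq, coord a a ha, coord a b ha, coord v a hv, coord v b hv]
    field_simp
    ring
  have hz1 : inner ℝ z f₁ = 0 := by
    rw [hz, inner_sub_left, inner_add_left, inner_smul_left, inner_smul_left, hvA, hvB]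
    simp only [RCLike.conj_to_real]
    rw [div_mul_eq_mul_div, div_mul_eq_mul_div, ← add_div, sub_eq_zero, eq_div_iff hD]
    ring
  have hz2 : inner ℝ z f₂ = 0 := by
    rw [hz, inner_sub_left, inner_add_left, inner_smul_left, inner_smul_left, hvA, hvB]
    simp only [RCLike.conj_to_real]
    rw [div_mul_eq_mul_div, div_mul_eq_mul_div, ← add_div, sub_eq_zero, eq_div_iff hD]
    ring
  have hz0 : z = 0 := by
    rw [hexp z hze, hz1, hz2]
    simp
  rw [hz, sub_eq_zero] at hz0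
  exact hz0

/-- Coordinates of `w τ - w c` w.r.t. `a + c b`, `b`, with the mean-value bounds. -/
theorem sweep_coords
    (e a b : E3) (he : ‖e‖ = 1) (ha : inner ℝ a e = 0) (hb : inner ℝ b e = 0) (hG : 0 < gram a b)
    (Λ : ℝ) (t₀ t₁ c : ℝ) (hc0 : t₀ ≤ c) (hc1 : c ≤ t₁)
    (w : ℝ → E3) (hw : ∀ t ∈ Set.Icc t₀ t₁, inner ℝ (w t) e = 0)
    (lam : ℝ → ℝ) (hlam : ∀ t ∈ Set.Icc t₀ t₁, |lam t| ≤ Λ)
    (hw' : ∀ t ∈ Set.Icc t₀ t₁,
      HasDerivWithinAt w (lam t • (a + t • b)) (Set.Icc t₀ t₁) t)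
    (τ : ℝ) (hτ : τ ∈ Set.Icc t₀ t₁) :
    ∃ X Z : ℝ, |X| ≤ Λ * (t₁ - t₀) ∧ |Z| ≤ Λ * (t₁ - t₀) ^ 2 ∧
      w τ - w c = X • (a + c • b) + Z • b := by
  have hcI : c ∈ Set.Icc t₀ t₁ := ⟨hc0, hc1⟩
  have hΛ : 0 ≤ Λ := le_trans (abs_nonneg _) (hlam c hcI)
  have hΔ : 0 ≤ t₁ - t₀ := by linarith
  have hτc : |τ - c| ≤ t₁ - t₀ := by
    rw [abs_le]
    constructor <;> linarith [hτ.1, hτ.2]
  -- the two coordinate functions
  have hf : ∀ t ∈ Set.Icc t₀ t₁, HasDerivWithinAt (fun t => inner ℝ (w t) (dualA a b))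
      (lam t) (Set.Icc t₀ t₁) t := by
    intro t ht
    have h := (hw' t ht).inner ℝ (hasDerivWithinAt_const t (Set.Icc t₀ t₁) (dualA a b))
    have e1 : inner ℝ (w t) (0 : E3) + inner ℝ (lam t • (a + t • b)) (dualA a b) = lam t := by
      rw [inner_zero_right, inner_smul_left, inner_add_left, inner_smul_left, inner_a_dualA a b hG,
        inner_b_dualA]
      simp
    rw [e1] at h
    exact h
  have hg : ∀ t ∈ Set.Icc t₀ t₁, HasDerivWithinAt
      (fun t => inner ℝ (w t) (dualB a b) - c * inner ℝ (w t) (dualA a b))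
      (lam t * (t - c)) (Set.Icc t₀ t₁) t := by
    intro t ht
    have h := (hw' t ht).inner ℝ (hasDerivWithinAt_const t (Set.Icc t₀ t₁) (dualB a b))
    have e1 : inner ℝ (w t) (0 : E3) + inner ℝ (lam t • (a + t • b)) (dualB a b) = lam t * t := by
      rw [inner_zero_right, inner_smul_left, inner_add_left, inner_smul_left, inner_a_dualB,
        inner_b_dualB a b hG]
      simp
    rw [e1] at h
    have h2 := h.sub ((hf t ht).const_mul c)
    have e2 : lam t * t - c * lam t = lam t * (t - c) := by ring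
    rw [e2] at h2
    exact h2
  have bf := Convex.norm_image_sub_le_of_norm_hasDerivWithin_le (C := Λ) hf
    (fun t ht => by rw [Real.norm_eq_abs]; exact hlam t ht) (convex_Icc t₀ t₁) hcI hτ
  have bg := Convex.norm_image_sub_le_of_norm_hasDerivWithin_le (C := Λ * (t₁ - t₀)) hg
    (fun t ht => by
      rw [Real.norm_eq_abs, abs_mul]
      have h1 : |t - c| ≤ t₁ - t₀ := by
        rw [abs_le]
        constructor <;> linarith [ht.1, ht.2]
      exact mul_le_mul (hlam t ht) h1 (abs_nonneg _) hΛ) (convex_Icc t₀ t₁) hcI hτ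
  rw [Real.norm_eq_abs, Real.norm_eq_abs] at bf bg
  refine ⟨inner ℝ (w τ) (dualA a b) - inner ℝ (w c) (dualA a b),
    (inner ℝ (w τ) (dualB a b) - c * inner ℝ (w τ) (dualA a b))
      - (inner ℝ (w c) (dualB a b) - c * inner ℝ (w c) (dualA a b)), ?_, ?_, ?_⟩
  · calc _ ≤ Λ * |τ - c| := bf
      _ ≤ Λ * (t₁ - t₀) := mul_le_mul_of_nonneg_left hτc hΛ
  · calc _ ≤ Λ * (t₁ - t₀) * |τ - c| := bg
      _ ≤ Λ * (t₁ - t₀) * (t₁ - t₀) := mul_le_mul_of_nonneg_left hτc (mul_nonneg hΛ hΔ)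
      _ = Λ * (t₁ - t₀) ^ 2 := by ring
  · have hv : inner ℝ (w τ - w c) e = 0 := by
      rw [inner_sub_left, hw τ hτ, hw c hcI, sub_zero]
    have h := eq_dual_comb e a b (w τ - w c) he ha hb hv hG
    rw [inner_sub_left, inner_sub_left] at h
    rw [h]
    module

/-- The `[t₀,t₁]`-piece of the radial sweep (shape of S0328). -/
def piece (e a b p₀ : E3) (L : ℝ) (R : ℝ → ℝ) (w : ℝ → E3) (t₀ t₁ : ℝ) : Set E3 :=
  {x : E3 | ∃ τ ∈ Set.Icc t₀ t₁, ∃ ρ ∈ Set.Icc 0 (R τ), ∃ s : ℝ, abs s ≤ L ∧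
    x = p₀ + ρ • (a + τ • b) + s • (e + w τ)}

/-- The cylinder with axis `u` over the triangle `p q r` (shape of S0328). -/
def cyl (u p q r : E3) : Set E3 :=
  {x : E3 | ∃ y ∈ convexHull ℝ {p, q, r}, ∃ σ : ℝ, x = y + σ • u}

/-- Containment of the piece in the oblique cylinder over the planar triangle in `e^⊥`
(barycentric form). -/
theorem piece_mem_slice
    (e a b p₀ : E3) (he : ‖e‖ = 1)
    (ha : inner ℝ a e = 0) (hb : inner ℝ b e = 0)
    (hG : 0 < gram a b)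
    (L Λ : ℝ) (hL : 0 ≤ L) (t₀ t₁ c : ℝ) (hc0 : t₀ ≤ c) (hc1 : c ≤ t₁)
    (w : ℝ → E3) (hw : ∀ t ∈ Set.Icc t₀ t₁, inner ℝ (w t) e = 0)
    (lam : ℝ → ℝ) (hlam : ∀ t ∈ Set.Icc t₀ t₁, |lam t| ≤ Λ)
    (hw' : ∀ t ∈ Set.Icc t₀ t₁,
      HasDerivWithinAt w (lam t • (a + t • b)) (Set.Icc t₀ t₁) t)
    (R : ℝ → ℝ) (H : ℝ) (hRH : ∀ t ∈ Set.Icc t₀ t₁, R t ≤ H)
    (θ σ Hc : ℝ) (hθ : 0 ≤ θ) (hσ : L * Λ * (t₁ - t₀) ≤ σ)
    (hcond : L * Λ * (t₁ - t₀) ^ 2 ≤ (min (c - t₀) (t₁ - c) + θ) * (σ - L * Λ * (t₁ - t₀)))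
    (hHc : H + L * Λ * (t₁ - t₀) ≤ Hc)
    (hpos : 0 < Hc + σ) (hwid : 0 < t₁ - t₀ + 2 * θ)
    (x : E3) (hx : x ∈ piece e a b p₀ L R w t₀ t₁) :
    ∃ s' t' s : ℝ, 0 ≤ s' ∧ 0 ≤ t' ∧ s' + t' ≤ 1 ∧
      x = (p₀ - σ • (a + c • b)) + s' • ((Hc + σ) • ((a + c • b) - (c - t₀ + θ) • b))
        + t' • ((Hc + σ) • ((a + c • b) + (t₁ - c + θ) • b)) + s • (e + w c) := by
  obtain ⟨τ, hτ, ρ, hρ, s, hs, rfl⟩ := hx
  obtain ⟨X, Z, hX, hZ, hXZ⟩ := sweep_coords e a b he ha hb hG Λ t₀ t₁ c hc0 hc1 w hw lam hlam hw'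
    τ hτ
  have hcI : c ∈ Set.Icc t₀ t₁ := ⟨hc0, hc1⟩
  have hΛ : 0 ≤ Λ := le_trans (abs_nonneg _) (hlam c hcI)
  have hΔ : 0 ≤ t₁ - t₀ := by linarith
  have hwτ : w τ = w c + X • (a + c • b) + Z • b := by
    rw [add_assoc, ← hXZ]
    abel
  have hsX : |s * X| ≤ L * Λ * (t₁ - t₀) := by
    rw [abs_mul]
    calc |s| * |X| ≤ L * (Λ * (t₁ - t₀)) := mul_le_mul hs hX (abs_nonneg _) hL
      _ = L * Λ * (t₁ - t₀) := by ring
  have hsZ : |s * Z| ≤ L * Λ * (t₁ - t₀) ^ 2 := by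
    rw [abs_mul]
    calc |s| * |Z| ≤ L * (Λ * (t₁ - t₀) ^ 2) := mul_le_mul hs hZ (abs_nonneg _) hL
      _ = L * Λ * (t₁ - t₀) ^ 2 := by ring
  rw [abs_le] at hsX hsZ
  set n : ℝ := L * Λ * (t₁ - t₀) with hn
  have hρ0 : 0 ≤ ρ := hρ.1
  have hρH : ρ ≤ H := le_trans hρ.2 (hRH τ hτ)
  have hmin1 : min (c - t₀) (t₁ - c) ≤ c - t₀ := min_le_left _ _
  have hmin2 : min (c - t₀) (t₁ - c) ≤ t₁ - c := min_le_right _ _
  have hσn : 0 ≤ σ - n := by linarith
  set D : ℝ := (Hc + σ) * (t₁ - t₀ + 2 * θ) with hD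
  have hDpos : 0 < D := mul_pos hpos hwid
  set Ns : ℝ := (t₁ - c + θ) * (ρ + s * X + σ) - (ρ * (τ - c) + s * Z) with hNs
  set Nt : ℝ := (ρ * (τ - c) + s * Z) + (c - t₀ + θ) * (ρ + s * X + σ) with hNt
  have hNs0 : 0 ≤ Ns := by
    have e1 : Ns = ρ * (t₁ - τ + θ) + (t₁ - c + θ) * (σ - n) + (t₁ - c + θ) * (n + s * X)
        - s * Z := by rw [hNs]; ring
    have h1 : 0 ≤ ρ * (t₁ - τ + θ) := mul_nonneg hρ0 (by linarith [hτ.2])
    have h2 : 0 ≤ (t₁ - c + θ) * (n + s * X) := mul_nonneg (by linarith) (by linarith [hsX.1])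
    have h3 : (min (c - t₀) (t₁ - c) + θ) * (σ - n) ≤ (t₁ - c + θ) * (σ - n) :=
      mul_le_mul_of_nonneg_right (by linarith) hσn
    rw [e1]
    linarith [hsZ.2]
  have hNt0 : 0 ≤ Nt := by
    have e1 : Nt = ρ * (τ - t₀ + θ) + (c - t₀ + θ) * (σ - n) + (c - t₀ + θ) * (n + s * X)
        + s * Z := by rw [hNt]; ring
    have h1 : 0 ≤ ρ * (τ - t₀ + θ) := mul_nonneg hρ0 (by linarith [hτ.1])
    have h2 : 0 ≤ (c - t₀ + θ) * (n + s * X) := mul_nonneg (by linarith) (by linarith [hsX.1])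
    have h3 : (min (c - t₀) (t₁ - c) + θ) * (σ - n) ≤ (c - t₀ + θ) * (σ - n) :=
      mul_le_mul_of_nonneg_right (by linarith) hσn
    rw [e1]
    linarith [hsZ.1]
  have hsum : Ns + Nt = (ρ + s * X + σ) * (t₁ - t₀ + 2 * θ) := by rw [hNs, hNt]; ring
  refine ⟨Ns / D, Nt / D, s, div_nonneg hNs0 hDpos.le, div_nonneg hNt0 hDpos.le, ?_, ?_⟩
  · rw [← add_div, div_le_one hDpos, hsum, hD]
    exact mul_le_mul_of_nonneg_right (by linarith [hsX.2]) hwid.le
  · have h1 : (Ns / D + Nt / D) * (Hc + σ) = ρ + s * X + σ := by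
      rw [← add_div, hsum, hD]
      field_simp
    have h2 : (Hc + σ) * (Nt / D * (t₁ - c + θ) - Ns / D * (c - t₀ + θ))
        = ρ * (τ - c) + s * Z := by
      have h2' : Nt * (t₁ - c + θ) - Ns * (c - t₀ + θ)
          = (ρ * (τ - c) + s * Z) * (t₁ - t₀ + 2 * θ) := by rw [hNs, hNt]; ring
      have hne1 : Hc + σ ≠ 0 := hpos.ne'
      have hne2 : t₁ - t₀ + 2 * θ ≠ 0 := hwid.ne'
      rw [div_mul_eq_mul_div, div_mul_eq_mul_div, ← sub_div, h2', hD]
      field_simp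
    have e1 : (p₀ - σ • (a + c • b)) + (Ns / D) • ((Hc + σ) • ((a + c • b) - (c - t₀ + θ) • b))
        + (Nt / D) • ((Hc + σ) • ((a + c • b) + (t₁ - c + θ) • b)) + s • (e + w c)
        = p₀ + ((Ns / D + Nt / D) * (Hc + σ) - σ) • (a + c • b)
          + ((Hc + σ) * (Nt / D * (t₁ - c + θ) - Ns / D * (c - t₀ + θ))) • b + s • (e + w c) := by
      module
    rw [e1, h1, h2, hwτ]
    module

theorem isLinearMap_proj (u : E3) : IsLinearMap ℝ (proj u) :=
  ⟨proj_add u, proj_smul u⟩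

theorem proj_image_triangle (u p q r : E3) :
    proj u '' convexHull ℝ {p, q, r} = convexHull ℝ {proj u p, proj u q, proj u r} := by
  rw [(isLinearMap_proj u).image_convexHull, Set.image_insert_eq, Set.image_pair]

theorem eq_proj_add (u y : E3) : y = proj u y + (inner ℝ y u / ‖u‖ ^ 2) • u := by
  unfold proj
  abel

set_option linter.unusedVariables false in
/-- **One-piece lemma.** The `[t₀,t₁]`-piece of the radial sweep lies in one cylinder with axis
`e + w c` over an explicit nondegenerate triangle of `(e + w c)^⊥`: the projection along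
`e + w c` of the triangle with `(ξ,ζ)`-vertices `(−σ,0)`, `(Hc, −(c−t₀+θ)(Hc+σ))`,
`(Hc, (t₁−c+θ)(Hc+σ))` in the coordinates `p₀ + ξ(a + c b) + ζ b` of `e^⊥`. -/
theorem one_piece
    (e a b p₀ : E3) (he : ‖e‖ = 1)
    (ha : inner ℝ a e = 0) (hb : inner ℝ b e = 0) (hp₀ : inner ℝ p₀ e = 0)
    (hG : 0 < gram a b)
    (L Λ : ℝ) (hL : 0 ≤ L) (t₀ t₁ c : ℝ) (hc0 : t₀ ≤ c) (hc1 : c ≤ t₁)
    (w : ℝ → E3) (hw : ∀ t ∈ Set.Icc t₀ t₁, inner ℝ (w t) e = 0)
    (lam : ℝ → ℝ) (hlam : ∀ t ∈ Set.Icc t₀ t₁, |lam t| ≤ Λ)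
    (hw' : ∀ t ∈ Set.Icc t₀ t₁,
      HasDerivWithinAt w (lam t • (a + t • b)) (Set.Icc t₀ t₁) t)
    (R : ℝ → ℝ) (H : ℝ) (hRH : ∀ t ∈ Set.Icc t₀ t₁, R t ≤ H)
    (θ σ Hc : ℝ) (hθ : 0 ≤ θ) (hσ : L * Λ * (t₁ - t₀) ≤ σ)
    (hcond : L * Λ * (t₁ - t₀) ^ 2 ≤ (min (c - t₀) (t₁ - c) + θ) * (σ - L * Λ * (t₁ - t₀)))
    (hHc : H + L * Λ * (t₁ - t₀) ≤ Hc)
    (hpos : 0 < Hc + σ) (hwid : 0 < t₁ - t₀ + 2 * θ) :
    ∃ p q r : E3,
      (inner ℝ p (e + w c) = 0 ∧ inner ℝ q (e + w c) = 0 ∧ inner ℝ r (e + w c) = 0) ∧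
      gram (q - p) (r - p)
        = ((Hc + σ) ^ 2 * (t₁ - t₀ + 2 * θ)) ^ 2 * gram a b / (1 + ‖w c‖ ^ 2) ∧
      AffineIndependent ℝ ![p, q, r] ∧
      (μHE[2] (convexHull ℝ {p, q, r})).toReal
        = (Hc + σ) ^ 2 * (t₁ - t₀ + 2 * θ) * Real.sqrt (gram a b)
            / (2 * Real.sqrt (1 + ‖w c‖ ^ 2)) ∧
      piece e a b p₀ L R w t₀ t₁ ⊆ cyl (e + w c) p q r ∧
      proj (e + w c) '' piece e a b p₀ L R w t₀ t₁ ⊆ convexHull ℝ {p, q, r} := by
  have hcI : c ∈ Set.Icc t₀ t₁ := ⟨hc0, hc1⟩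
  have hwc := hw c hcI
  set u : E3 := e + w c with hu
  set P₀ : E3 := p₀ - σ • (a + c • b) with hP₀
  set V₁ : E3 := (Hc + σ) • ((a + c • b) - (c - t₀ + θ) • b) with hV₁
  set V₂ : E3 := (Hc + σ) • ((a + c • b) + (t₁ - c + θ) • b) with hV₂
  have hV₁e : inner ℝ V₁ e = 0 := by
    rw [hV₁]
    simp only [inner_smul_left, inner_add_left, inner_sub_left, ha, hb]
    simp
  have hV₂e : inner ℝ V₂ e = 0 := by
    rw [hV₂]
    simp only [inner_smul_left, inner_add_left, ha, hb]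
    simp
  have hK : 0 < (Hc + σ) ^ 2 * (t₁ - t₀ + 2 * θ) := mul_pos (pow_pos hpos 2) hwid
  have hU : (0:ℝ) < 1 + ‖w c‖ ^ 2 := by positivity
  have hgram : gram (proj u (P₀ + V₁) - proj u P₀) (proj u (P₀ + V₂) - proj u P₀)
      = ((Hc + σ) ^ 2 * (t₁ - t₀ + 2 * θ)) ^ 2 * gram a b / (1 + ‖w c‖ ^ 2) := by
    rw [proj_add, proj_add, add_sub_cancel_left, add_sub_cancel_left, hu,
      gram_proj_perp e V₁ V₂ (w c) he hV₁e hV₂e hwc]
    congr 1
    have e1 : V₁ = (Hc + σ) • a + ((Hc + σ) * (c - (c - t₀ + θ))) • b := by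
      rw [hV₁]; module
    have e2 : V₂ = (Hc + σ) • a + ((Hc + σ) * (c + (t₁ - c + θ))) • b := by
      rw [hV₂]; module
    rw [e1, e2, gram_lin_comb]
    ring
  have hgpos : 0 < gram (proj u (P₀ + V₁) - proj u P₀) (proj u (P₀ + V₂) - proj u P₀) := by
    rw [hgram]
    exact div_pos (mul_pos (pow_pos hK 2) hG) hU
  -- membership
  have key : ∀ x ∈ piece e a b p₀ L R w t₀ t₁, ∃ y : E3,
      proj u y ∈ convexHull ℝ {proj u P₀, proj u (P₀ + V₁), proj u (P₀ + V₂)} ∧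
      ∃ s : ℝ, x = y + s • u := by
    intro x hx
    obtain ⟨s', t', s, hs', ht', hst, hxeq⟩ := piece_mem_slice e a b p₀ he ha hb hG L Λ hL t₀ t₁ c
      hc0 hc1 w hw lam hlam hw' R H hRH θ σ Hc hθ hσ hcond hHc hpos hwid x hx
    refine ⟨P₀ + s' • V₁ + t' • V₂, ?_, s, hxeq⟩
    rw [convexHull_triple_eq]
    refine ⟨s', t', hs', ht', hst, ?_⟩
    simp only [proj_add, proj_smul, add_sub_cancel_left]
  refine ⟨proj u P₀, proj u (P₀ + V₁), proj u (P₀ + V₂),
    ⟨inner_proj_self _ _, inner_proj_self _ _, inner_proj_self _ _⟩, hgram,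
    affineIndependent_of_gram_pos _ _ _ hgpos, ?_, ?_, ?_⟩
  · rw [area_triangle_toReal, hgram, Real.sqrt_div (mul_nonneg (sq_nonneg _) hG.le),
      Real.sqrt_mul (sq_nonneg _), Real.sqrt_sq hK.le]
    ring
  · intro x hx
    obtain ⟨y, hy, s, rfl⟩ := key x hx
    refine ⟨proj u y, hy, inner ℝ y u / ‖u‖ ^ 2 + s, ?_⟩
    conv_lhs => rw [eq_proj_add u y]
    module
  · rintro _ ⟨x, hx, rfl⟩
    obtain ⟨y, hy, s, rfl⟩ := key x hx
    have e1 : proj u (y + s • u) = proj u y := by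
      rw [proj_add, proj_smul, proj_self, smul_zero, add_zero]
    rw [e1]
    exact hy

/-- Upper bound for the projected piece (corollary of `one_piece`). -/
theorem area_proj_piece_le
    (e a b p₀ : E3) (he : ‖e‖ = 1)
    (ha : inner ℝ a e = 0) (hb : inner ℝ b e = 0) (hp₀ : inner ℝ p₀ e = 0)
    (hG : 0 < gram a b)
    (L Λ : ℝ) (hL : 0 ≤ L) (t₀ t₁ c : ℝ) (hc0 : t₀ ≤ c) (hc1 : c ≤ t₁)
    (w : ℝ → E3) (hw : ∀ t ∈ Set.Icc t₀ t₁, inner ℝ (w t) e = 0)
    (lam : ℝ → ℝ) (hlam : ∀ t ∈ Set.Icc t₀ t₁, |lam t| ≤ Λ)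
    (hw' : ∀ t ∈ Set.Icc t₀ t₁,
      HasDerivWithinAt w (lam t • (a + t • b)) (Set.Icc t₀ t₁) t)
    (R : ℝ → ℝ) (H : ℝ) (hRH : ∀ t ∈ Set.Icc t₀ t₁, R t ≤ H)
    (θ σ Hc : ℝ) (hθ : 0 ≤ θ) (hσ : L * Λ * (t₁ - t₀) ≤ σ)
    (hcond : L * Λ * (t₁ - t₀) ^ 2 ≤ (min (c - t₀) (t₁ - c) + θ) * (σ - L * Λ * (t₁ - t₀)))
    (hHc : H + L * Λ * (t₁ - t₀) ≤ Hc)
    (hpos : 0 < Hc + σ) (hwid : 0 < t₁ - t₀ + 2 * θ) :
    μHE[2] (proj (e + w c) '' piece e a b p₀ L R w t₀ t₁)
      ≤ ENNReal.ofReal ((Hc + σ) ^ 2 * (t₁ - t₀ + 2 * θ) * Real.sqrt (gram a b)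
            / (2 * Real.sqrt (1 + ‖w c‖ ^ 2))) := by
  obtain ⟨p, q, r, -, -, -, harea, -, himg⟩ := one_piece e a b p₀ he ha hb hp₀ hG L Λ hL t₀ t₁ c
    hc0 hc1 w hw lam hlam hw' R H hRH θ σ Hc hθ hσ hcond hHc hpos hwid
  calc μHE[2] (proj (e + w c) '' piece e a b p₀ L R w t₀ t₁)
      ≤ μHE[2] (convexHull ℝ {p, q, r}) := measure_mono himg
    _ = ENNReal.ofReal ((μHE[2] (convexHull ℝ {p, q, r})).toReal) :=
        (ENNReal.ofReal_toReal (area_triangle_ne_top p q r)).symm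
    _ = _ := by rw [harea]

/-- Lower bound for the projected piece: it contains the projected fan triangle
`p₀, p₀ + m(a + t₀ b), p₀ + m(a + t₁ b)`. -/
theorem area_proj_piece_ge
    (e a b p₀ : E3) (he : ‖e‖ = 1)
    (ha : inner ℝ a e = 0) (hb : inner ℝ b e = 0)
    (L : ℝ) (hL : 0 ≤ L) (t₀ t₁ c : ℝ) (ht : t₀ ≤ t₁)
    (w : ℝ → E3) (hwc : inner ℝ (w c) e = 0)
    (R : ℝ → ℝ) (m : ℝ) (hm : 0 ≤ m) (hmR : ∀ t ∈ Set.Icc t₀ t₁, m ≤ R t) :
    ENNReal.ofReal (m ^ 2 * (t₁ - t₀) * Real.sqrt (gram a b)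
            / (2 * Real.sqrt (1 + ‖w c‖ ^ 2)))
      ≤ μHE[2] (proj (e + w c) '' piece e a b p₀ L R w t₀ t₁) := by
  set u : E3 := e + w c with hu
  set V₁ : E3 := m • (a + t₀ • b) with hV₁
  set V₂ : E3 := m • (a + t₁ • b) with hV₂
  have hsub : convexHull ℝ {p₀, p₀ + V₁, p₀ + V₂} ⊆ piece e a b p₀ L R w t₀ t₁ := by
    rw [convexHull_triple_eq]
    rintro x ⟨s', t', hs', ht', hst, rfl⟩
    rw [add_sub_cancel_left, add_sub_cancel_left]
    by_cases h0 : s' + t' = 0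
    · have hs0 : s' = 0 := by linarith
      have ht0 : t' = 0 := by linarith
      refine ⟨t₀, ⟨le_refl _, ht⟩, 0, ⟨le_refl _, le_trans hm (hmR t₀ ⟨le_refl _, ht⟩)⟩, 0, ?_, ?_⟩
      · simpa using hL
      · rw [hs0, ht0]
        simp
    · have hpos : 0 < s' + t' := lt_of_le_of_ne (by linarith) (Ne.symm h0)
      have hτ : (s' * t₀ + t' * t₁) / (s' + t') ∈ Set.Icc t₀ t₁ := by
        constructor
        · rw [le_div_iff₀ hpos]
          nlinarith
        · rw [div_le_iff₀ hpos]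
          nlinarith
      refine ⟨(s' * t₀ + t' * t₁) / (s' + t'), hτ, m * (s' + t'), ⟨by positivity, ?_⟩, 0, ?_, ?_⟩
      · calc m * (s' + t') ≤ m * 1 := mul_le_mul_of_nonneg_left hst hm
          _ = m := mul_one m
          _ ≤ _ := hmR _ hτ
      · simpa using hL
      · have e1 : (m * (s' + t')) * ((s' * t₀ + t' * t₁) / (s' + t')) = m * (s' * t₀ + t' * t₁) := by
          field_simp
        have e2 : p₀ + (m * (s' + t')) • (a + ((s' * t₀ + t' * t₁) / (s' + t')) • b) + (0:ℝ) • (e + w ((s' * t₀ + t' * t₁) / (s' + t')))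
            = p₀ + (m * (s' + t')) • a
              + ((m * (s' + t')) * ((s' * t₀ + t' * t₁) / (s' + t'))) • b := by
          module
        rw [e2, e1, hV₁, hV₂]
        module
  have hV₁e : inner ℝ V₁ e = 0 := by
    rw [hV₁]
    simp only [inner_smul_left, inner_add_left, ha, hb]
    simp
  have hV₂e : inner ℝ V₂ e = 0 := by
    rw [hV₂]
    simp only [inner_smul_left, inner_add_left, ha, hb]
    simp
  have hgram : gram (proj u (p₀ + V₁) - proj u p₀) (proj u (p₀ + V₂) - proj u p₀)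
      = (m ^ 2 * (t₁ - t₀)) ^ 2 * gram a b / (1 + ‖w c‖ ^ 2) := by
    rw [proj_add, proj_add, add_sub_cancel_left, add_sub_cancel_left, hu,
      gram_proj_perp e V₁ V₂ (w c) he hV₁e hV₂e hwc]
    congr 1
    have e1 : V₁ = m • a + (m * t₀) • b := by
      rw [hV₁]; module
    have e2 : V₂ = m • a + (m * t₁) • b := by
      rw [hV₂]; module
    rw [e1, e2, gram_lin_comb]
    ring
  have hK : 0 ≤ m ^ 2 * (t₁ - t₀) := mul_nonneg (sq_nonneg _) (by linarith)
  calc ENNReal.ofReal (m ^ 2 * (t₁ - t₀) * Real.sqrt (gram a b)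
            / (2 * Real.sqrt (1 + ‖w c‖ ^ 2)))
      = μHE[2] (convexHull ℝ {proj u p₀, proj u (p₀ + V₁), proj u (p₀ + V₂)}) := by
        rw [area_triangle, hgram, Real.sqrt_div (mul_nonneg (sq_nonneg _) (gram_nonneg a b)),
          Real.sqrt_mul (sq_nonneg _), Real.sqrt_sq hK]
        congr 1
        ring
    _ = μHE[2] (proj u '' convexHull ℝ {p₀, p₀ + V₁, p₀ + V₂}) := by
        rw [proj_image_triangle]
    _ ≤ μHE[2] (proj u '' piece e a b p₀ L R w t₀ t₁) :=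
        measure_mono (Set.image_mono hsub)

/-- Normalising the axis does not change the cylinder. -/
theorem cyl_normalize (u p q r : E3) (hu : u ≠ 0) :
    cyl (‖u‖⁻¹ • u) p q r = cyl u p q r := by
  have hn : ‖u‖ ≠ 0 := norm_ne_zero_iff.mpr hu
  ext x
  constructor
  · rintro ⟨y, hy, σ, rfl⟩
    exact ⟨y, hy, σ * ‖u‖⁻¹, by rw [smul_smul]⟩
  · rintro ⟨y, hy, σ, rfl⟩
    exact ⟨y, hy, σ * ‖u‖, by rw [smul_smul, mul_assoc, mul_inv_cancel₀ hn, mul_one]⟩

end Crest.Agent.Helper7.Sweep
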